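import Mathlib
import Vale.Agent.P037.Defs

/-!
The pattern and the matrices of the counterexample to polynomial removal.

Rows and columns carry labels. Positions inside the dynamic regions are indexed by a leaf `J`
of the binary tree of depth `m`; a dynamic column of group `g` carries the `g`-th digit of `J`.
-/

namespace Vale.Agent.P037CE

/-- Labels of rows. -/
inductive RowLab : Type
  | tag (i : ℕ)
  | reader (g c σ : ℕ)
  | allCols
  | codeCols (g c : ℕ)
  | root
  | side
  | centre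
  | dyn (J a h κ : ℕ)
deriving DecidableEq

/-- Labels of columns. -/
inductive ColLab : Type
  | tag (j : ℕ)
  | code (g c : ℕ)
  | kind (κ : ℕ)
  | omega (g c : ℕ)
  | dyn (J a g σ : ℕ)
deriving DecidableEq

/-- The ancestor of depth `h` of the leaf `J`. -/
def pre (m h J : ℕ) : ℕ := J / 2 ^ (m - h)

/-- The `g`-th digit of the leaf `J`, and `0` for the bottom group `m + 1`. -/
def dig (m g J : ℕ) : ℕ := if g ≤ m then J / 2 ^ (m - g) % 2 else 0

/-- The number of tag bits. -/
def nBits : ℕ := 15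

/-- The number of tag rows. -/
def nTag : ℕ := 2 ^ nBits

/-- The tag block. -/
def tagVal (i j : ℕ) : Bool :=
  if j = 0 then true
  else if j ≤ nBits then i.testBit (j - 1)
  else decide (i = 0 ∨ j - nBits + 1 ≤ i)

/-- The signature of a band of rows on the tag columns. -/
def rowSig (b j : ℕ) : Bool := decide ((b = 1 ∧ j = 1) ∨ (b = 2 ∧ j = 2))

/-- The signature of a band of columns on the tag rows. -/
def colSig (b i : ℕ) : Bool := decide ((b = 1 ∧ i = 0) ∨ (b = 2 ∧ i = 1))

/-- The band of a row. -/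
def RowLab.band : RowLab → ℕ
  | .tag _ => 0
  | .reader _ _ _ => 0
  | .allCols => 1
  | .codeCols _ _ => 1
  | .root => 2
  | .side => 2
  | .centre => 2
  | .dyn _ _ _ _ => 2

/-- The band of a column. -/
def ColLab.band : ColLab → ℕ
  | .tag _ => 0
  | .code _ _ => 0
  | .kind _ => 1
  | .omega _ _ => 2
  | .dyn _ _ _ _ => 2

/-- The entries, in terms of labels. -/
def entry (m : ℕ) : RowLab → ColLab → Bool
  | .tag i, .tag j => tagVal i j
  | .tag i, cl => colSig cl.band i
  | rl, .tag j => rowSig rl.band j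
  | .reader g c _, .code g' c' => decide (g = g' ∧ c = c')
  | .reader _ _ _, .kind _ => true
  | .reader g c _, .omega g' c' => decide (g = g' ∧ c = c')
  | .reader g c σ, .dyn J _ k τ => decide (k = g ∧ dig m k J = c ∧ τ = σ)
  | .allCols, .code _ _ => true
  | .allCols, .kind _ => true
  | .allCols, .omega _ _ => false
  | .allCols, .dyn _ _ _ _ => true
  | .codeCols g c, .code g' c' => decide (g = g' ∧ c = c')
  | .codeCols _ _, .kind _ => true
  | .codeCols g c, .omega g' c' => decide (g = g' ∧ c = c')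
  | .codeCols g c, .dyn J _ k _ => decide (k = g ∧ dig m k J = c)
  | .root, .code g' _ => decide (g' = 1)
  | .root, _ => true
  | .side, .code g' c' => decide (g' = 1 ∨ (g' = m + 1 ∧ c' = 0))
  | .side, .kind _ => false
  | .side, _ => true
  | .centre, .code g' c' => decide (g' = m + 1 ∧ c' = 0)
  | .centre, .kind _ => false
  | .centre, .omega _ _ => true
  | .centre, .dyn _ _ k _ => decide (k = m + 1)
  | .dyn J _ h _, .code g' c' => decide (h + 1 = g' ∨ (h = g' ∧ dig m h J = c'))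
  | .dyn _ _ _ κ, .kind κ' => decide (κ = κ')
  | .dyn _ _ _ _, .omega _ _ => true
  | .dyn J _ h _, .dyn J' _ _ _ => decide (pre m h J = pre m h J')

/-- The core of the pattern: rows `f q r p x p'`, columns `e K v z v'`. -/
def gadget (i j : ℕ) : Bool :=
  !decide ((i = 0 ∧ j = 3) ∨ (j = 1 ∧ 3 ≤ i) ∨ (i = 4 ∧ j = 3))

/-- The band of a row of the gadget. -/
def gadgetRowBand (i : ℕ) : ℕ := if i = 0 then 0 else if i = 1 then 1 else 2

/-- The band of a column of the gadget. -/
def gadgetColBand (j : ℕ) : ℕ := if j = 0 then 0 else if j = 1 then 1 else 2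

/-- The side length of the pattern. -/
def kH : ℕ := nTag + 6

/-- The pattern. -/
def patH (i j : Fin kH) : Bool :=
  if i.val < nTag then
    if j.val < nTag + 1 then tagVal i.val j.val
    else colSig (gadgetColBand (j.val - (nTag + 1))) i.val
  else
    if j.val < nTag + 1 then rowSig (gadgetRowBand (i.val - nTag)) j.val
    else gadget (i.val - nTag) (j.val - (nTag + 1))

/-- The number of codes (group, digit). -/
def nCode (m : ℕ) : ℕ := 2 * (m + 1)

/-- The number of slots in a leaf. -/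
def nSlot (m : ℕ) : ℕ := 4 * m + 3

/-- The number of dynamic row classes in a leaf. -/
def rowL (m : ℕ) : ℕ := nSlot m * (2 * m)

/-- The number of dynamic column classes in a leaf. -/
def colL (m : ℕ) : ℕ := nSlot m * nCode m

/-- The first block of the dynamic rows. -/
def rowD (m : ℕ) : ℕ := nTag + 3 * nCode m + 3

/-- The first block of the dynamic columns. -/
def colD (m : ℕ) : ℕ := nTag + 2 * nCode m + 3

/-- The number of blocks. -/
def nBlock (m : ℕ) : ℕ := nTag + 4 * nCode m + colL m + 10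

/-- The side length of the matrix. -/
def side (m : ℕ) : ℕ := nBlock m * 2 ^ m

/-- The label of the static row block `b`. -/
def rowStatic (m b : ℕ) : RowLab :=
  if b < nTag then .tag b
  else if b < nTag + 2 * nCode m then
    .reader ((b - nTag) / 2 / 2 + 1) ((b - nTag) / 2 % 2) ((b - nTag) % 2)
  else if b = nTag + 2 * nCode m then .allCols
  else if b < nTag + 3 * nCode m + 1 then
    .codeCols ((b - (nTag + 2 * nCode m + 1)) / 2 + 1) ((b - (nTag + 2 * nCode m + 1)) % 2)
  else if b = nTag + 3 * nCode m + 1 then .root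
  else if b = rowD m + rowL m + 1 then .centre
  else .side

/-- The label of the row at position `p`. -/
def rowLab (m p : ℕ) : RowLab :=
  if rowD m * 2 ^ m ≤ p ∧ p < (rowD m + rowL m) * 2 ^ m then
    .dyn ((p - rowD m * 2 ^ m) / rowL m) ((p - rowD m * 2 ^ m) % rowL m / (2 * m))
      ((p - rowD m * 2 ^ m) % rowL m % (2 * m) / 2 + 1)
      ((p - rowD m * 2 ^ m) % rowL m % (2 * m) % 2)
  else rowStatic m (p / 2 ^ m)

/-- The label of the static column block `b`. -/
def colStatic (m b : ℕ) : ColLab :=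
  if b < nTag + 1 then .tag b
  else if b < nTag + 1 + nCode m then
    .code ((b - (nTag + 1)) / 2 + 1) ((b - (nTag + 1)) % 2)
  else if b < nTag + 3 + nCode m then .kind (b - (nTag + 1 + nCode m))
  else if b < colD m then
    .omega ((b - (nTag + 3 + nCode m)) / 2 + 1) ((b - (nTag + 3 + nCode m)) % 2)
  else
    .omega ((b - (colD m + colL m)) % nCode m / 2 + 1) ((b - (colD m + colL m)) % nCode m % 2)

/-- The label of the column at position `p`. -/
def colLab (m p : ℕ) : ColLab :=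
  if colD m * 2 ^ m ≤ p ∧ p < (colD m + colL m) * 2 ^ m then
    .dyn ((p - colD m * 2 ^ m) / colL m) ((p - colD m * 2 ^ m) % colL m / nCode m)
      ((p - colD m * 2 ^ m) % colL m % nCode m / 2 + 1)
      ((p - colD m * 2 ^ m) % colL m % nCode m % 2)
  else colStatic m (p / 2 ^ m)

/-- The counterexample matrix. -/
def matA (m : ℕ) (x y : Fin (side m)) : Bool := entry m (rowLab m x.val) (colLab m y.val)

lemma nTag_ge : 2 ≤ nTag := by
  unfold nTag nBits
  norm_num

lemma pre_zero {m J : ℕ} (hJ : J < 2 ^ m) : pre m 0 J = 0 := by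
  simp [pre, Nat.div_eq_of_lt hJ]

lemma pre_self (m J : ℕ) : pre m m J = J := by simp [pre]

lemma pre_mono {m h J J' : ℕ} (hle : J ≤ J') : pre m h J ≤ pre m h J' :=
  Nat.div_le_div_right hle

lemma pre_between {m h J J₁ J₂ : ℕ} (h₁ : J₁ ≤ J) (h₂ : J ≤ J₂)
    (he : pre m h J₁ = pre m h J₂) : pre m h J = pre m h J₂ :=
  le_antisymm (pre_mono h₂) (he ▸ pre_mono h₁)

lemma pre_eq_of_le {m h h' J J' : ℕ} (hle : h ≤ h') (he : pre m h' J = pre m h' J') :
    pre m h J = pre m h J' := by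
  unfold pre at *
  obtain ⟨c, hc⟩ : ∃ c, m - h = (m - h') + c := ⟨(m - h) - (m - h'), by omega⟩
  rw [hc, pow_add, ← Nat.div_div_eq_div_mul, ← Nat.div_div_eq_div_mul, he]

lemma pre_succ {m g J : ℕ} (hg : 1 ≤ g) (hm : g ≤ m) :
    pre m g J = 2 * pre m (g - 1) J + dig m g J := by
  unfold pre dig
  rw [if_pos hm]
  have h : m - (g - 1) = (m - g) + 1 := by omega
  rw [h, pow_succ, ← Nat.div_div_eq_div_mul]
  exact (Nat.div_add_mod _ 2).symm

lemma dig_lt (m g J : ℕ) : dig m g J < 2 := by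
  unfold dig
  split <;> omega

/-- Well-formed row labels. -/
def RowLab.Ok (m : ℕ) : RowLab → Prop
  | .tag i => i < nTag
  | .reader g c _ => 1 ≤ g ∧ g ≤ m + 1 ∧ c < 2
  | .codeCols g c => 1 ≤ g ∧ g ≤ m + 1 ∧ c < 2
  | .dyn J _ h κ => J < 2 ^ m ∧ 1 ≤ h ∧ h ≤ m ∧ κ < 2
  | _ => True

/-- Well-formed column labels. -/
def ColLab.Ok (m : ℕ) : ColLab → Prop
  | .tag j => j ≤ nTag
  | .code g c => 1 ≤ g ∧ g ≤ m + 1 ∧ c < 2
  | .kind κ => κ < 2
  | .omega g c => 1 ≤ g ∧ g ≤ m + 1 ∧ c < 2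
  | .dyn J _ g _ => J < 2 ^ m ∧ 1 ≤ g ∧ g ≤ m + 1

lemma rowStatic_ok (m b : ℕ) : (rowStatic m b).Ok m := by
  unfold rowStatic
  repeat' split
  all_goals simp only [RowLab.Ok, nCode] at * <;> omega

lemma colStatic_ok (m b : ℕ) : (colStatic m b).Ok m := by
  have h := Nat.mod_lt (b - (colD m + colL m)) (show 0 < nCode m by unfold nCode; omega)
  unfold colStatic
  repeat' split
  all_goals simp only [ColLab.Ok, nCode, colD] at * <;> omega

lemma rowLab_ok (m p : ℕ) : (rowLab m p).Ok m := by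
  unfold rowLab
  split
  · rename_i hp
    have hL : 0 < rowL m := by
      by_contra h0
      simp only [not_lt, Nat.le_zero] at h0
      rw [h0, Nat.add_zero] at hp
      omega
    have h1 : (p - rowD m * 2 ^ m) / rowL m < 2 ^ m := by
      rw [Nat.div_lt_iff_lt_mul hL]
      rw [Nat.add_mul, mul_comm (rowL m)] at hp
      omega
    have hm : 0 < m := by
      rcases Nat.eq_zero_or_pos m with h0 | h0
      · subst h0; simp [rowL] at hL
      · exact h0
    have h2 := Nat.mod_lt ((p - rowD m * 2 ^ m) % rowL m) (show 0 < 2 * m by omega)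
    exact ⟨h1, by omega, by omega, Nat.mod_lt _ (by norm_num)⟩
  · exact rowStatic_ok _ _

lemma colLab_ok (m p : ℕ) : (colLab m p).Ok m := by
  unfold colLab
  split
  · rename_i hp
    have hL : 0 < colL m := by unfold colL nSlot nCode; positivity
    have h1 : (p - colD m * 2 ^ m) / colL m < 2 ^ m := by
      rw [Nat.div_lt_iff_lt_mul hL]
      rw [Nat.add_mul, mul_comm (colL m)] at hp
      omega
    have h2 := Nat.mod_lt ((p - colD m * 2 ^ m) % colL m) (show 0 < nCode m by unfold nCode; omega)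
    refine ⟨h1, by omega, ?_⟩
    unfold nCode at h2 ⊢
    omega
  · exact colStatic_ok _ _

lemma rowLab_static {m p : ℕ} (h : ¬ (rowD m * 2 ^ m ≤ p ∧ p < (rowD m + rowL m) * 2 ^ m)) :
    rowLab m p = rowStatic m (p / 2 ^ m) := if_neg h

lemma colLab_static {m p : ℕ} (h : ¬ (colD m * 2 ^ m ≤ p ∧ p < (colD m + colL m) * 2 ^ m)) :
    colLab m p = colStatic m (p / 2 ^ m) := if_neg h

lemma rowLab_dyn_iff {m p J a h κ : ℕ} (hp : rowLab m p = .dyn J a h κ) :
    rowD m * 2 ^ m ≤ p ∧ p < (rowD m + rowL m) * 2 ^ m ∧ J = (p - rowD m * 2 ^ m) / rowL m := by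
  by_cases hr : rowD m * 2 ^ m ≤ p ∧ p < (rowD m + rowL m) * 2 ^ m
  · rw [rowLab, if_pos hr] at hp
    injection hp with e1
    exact ⟨hr.1, hr.2, e1.symm⟩
  · rw [rowLab_static hr] at hp
    unfold rowStatic at hp
    repeat' split at hp
    all_goals cases hp

lemma colLab_dyn_iff {m p J a g σ : ℕ} (hp : colLab m p = .dyn J a g σ) :
    colD m * 2 ^ m ≤ p ∧ p < (colD m + colL m) * 2 ^ m ∧ J = (p - colD m * 2 ^ m) / colL m := by
  by_cases hr : colD m * 2 ^ m ≤ p ∧ p < (colD m + colL m) * 2 ^ m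
  · rw [colLab, if_pos hr] at hp
    injection hp with e1
    exact ⟨hr.1, hr.2, e1.symm⟩
  · rw [colLab_static hr] at hp
    unfold colStatic at hp
    repeat' split at hp
    all_goals cases hp

/-- A row between two dynamic rows is dynamic, with a leaf in between. -/
lemma row_between {m p₁ p p₂ J₁ a₁ h₁ κ₁ J₂ a₂ h₂ κ₂ : ℕ} (l₁ : p₁ ≤ p) (l₂ : p ≤ p₂)
    (e₁ : rowLab m p₁ = .dyn J₁ a₁ h₁ κ₁) (e₂ : rowLab m p₂ = .dyn J₂ a₂ h₂ κ₂) :
    ∃ J a h κ, rowLab m p = .dyn J a h κ ∧ J₁ ≤ J ∧ J ≤ J₂ := by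
  obtain ⟨a1, _, rfl⟩ := rowLab_dyn_iff e₁
  obtain ⟨_, b2, rfl⟩ := rowLab_dyn_iff e₂
  refine ⟨_, _, _, _, if_pos ⟨a1.trans l₁, lt_of_le_of_lt l₂ b2⟩, ?_, ?_⟩
  · exact Nat.div_le_div_right (Nat.sub_le_sub_right l₁ _)
  · exact Nat.div_le_div_right (Nat.sub_le_sub_right l₂ _)

/-- A column between two dynamic columns is dynamic, with a leaf in between. -/
lemma col_between {m p₁ p p₂ J₁ a₁ g₁ σ₁ J₂ a₂ g₂ σ₂ : ℕ} (l₁ : p₁ ≤ p) (l₂ : p ≤ p₂)
    (e₁ : colLab m p₁ = .dyn J₁ a₁ g₁ σ₁) (e₂ : colLab m p₂ = .dyn J₂ a₂ g₂ σ₂) :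
    ∃ J a g σ, colLab m p = .dyn J a g σ ∧ J₁ ≤ J ∧ J ≤ J₂ := by
  obtain ⟨a1, _, rfl⟩ := colLab_dyn_iff e₁
  obtain ⟨_, b2, rfl⟩ := colLab_dyn_iff e₂
  refine ⟨_, _, _, _, if_pos ⟨a1.trans l₁, lt_of_le_of_lt l₂ b2⟩, ?_, ?_⟩
  · exact Nat.div_le_div_right (Nat.sub_le_sub_right l₁ _)
  · exact Nat.div_le_div_right (Nat.sub_le_sub_right l₂ _)

end Vale.Agent.P037CE
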