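import Mathlib
import Vale.Agent.P037CE.Labels

/-! Positions of sampled static and dynamic classes. -/

namespace Vale.Agent.P037CE

/-- The index of a dynamic row class inside a leaf. -/
def rowIdx (m a h κ : ℕ) : ℕ := a * (2 * m) + (h - 1) * 2 + κ

/-- The index of a dynamic column class inside a leaf. -/
def colIdx (m a g σ : ℕ) : ℕ := a * nCode m + (g - 1) * 2 + σ

/-- Position of copy `i` of the static block `b`. -/
def statPos (m b i : ℕ) : ℕ := b * 2 ^ m + i

/-- Position of the dynamic class `l` in leaf `J`. -/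
def dynPos (m D L J l : ℕ) : ℕ := D * 2 ^ m + (J * L + l)

lemma rowIdx_lt {m a h κ : ℕ} (ha : a < nSlot m) (h1 : 1 ≤ h) (hm : h ≤ m) (hκ : κ < 2) :
    rowIdx m a h κ < rowL m := by
  have := Nat.mul_le_mul_right (2 * m) (show a + 1 ≤ nSlot m from ha)
  rw [Nat.add_mul] at this
  unfold rowIdx rowL
  omega

lemma colIdx_lt {m a g σ : ℕ} (ha : a < nSlot m) (h1 : 1 ≤ g) (hm : g ≤ m + 1) (hσ : σ < 2) :
    colIdx m a g σ < colL m := by
  have := Nat.mul_le_mul_right (nCode m) (show a + 1 ≤ nSlot m from ha)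
  rw [Nat.add_mul] at this
  unfold colIdx colL
  unfold nCode at *
  omega

lemma rowIdx_slot_lt {m a a' h h' κ κ' : ℕ} (ha : a < a') (hm : h ≤ m) (h1 : 1 ≤ h) (hκ : κ < 2) :
    rowIdx m a h κ < rowIdx m a' h' κ' := by
  have := Nat.mul_le_mul_right (2 * m) (show a + 1 ≤ a' from ha)
  rw [Nat.add_mul] at this
  unfold rowIdx
  omega

lemma colIdx_slot_lt {m a a' g g' σ σ' : ℕ} (ha : a < a') (hm : g ≤ m + 1) (h1 : 1 ≤ g)
    (hσ : σ < 2) : colIdx m a g σ < colIdx m a' g' σ' := by
  have := Nat.mul_le_mul_right (nCode m) (show a + 1 ≤ a' from ha)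
  rw [Nat.add_mul] at this
  unfold colIdx
  unfold nCode at *
  omega

lemma statPos_lt {m b i P : ℕ} (hb : b < P) (hi : i < 2 ^ m) : statPos m b i < P * 2 ^ m := by
  have := Nat.mul_le_mul_right (2 ^ m) (show b + 1 ≤ P from hb)
  rw [Nat.add_mul] at this
  unfold statPos
  omega

lemma dynPos_range {m D L J l : ℕ} (hJ : J < 2 ^ m) (hl : l < L) :
    D * 2 ^ m ≤ dynPos m D L J l ∧ dynPos m D L J l < (D + L) * 2 ^ m := by
  have := Nat.mul_le_mul_right L (show J + 1 ≤ 2 ^ m from hJ)
  rw [Nat.add_mul, mul_comm (2 ^ m) L] at this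
  unfold dynPos
  rw [Nat.add_mul]
  omega

lemma rowLab_statPos {m b i : ℕ} (hi : i < 2 ^ m) (hb : b < rowD m ∨ rowD m + rowL m ≤ b) :
    rowLab m (statPos m b i) = rowStatic m b := by
  have hdiv : statPos m b i / 2 ^ m = b := by
    rw [statPos, Nat.add_comm, Nat.add_mul_div_right _ _ (Nat.two_pow_pos m),
      Nat.div_eq_of_lt hi, Nat.zero_add]
  rw [rowLab_static, hdiv]
  rintro ⟨h1, h2⟩
  rcases hb with hb | hb
  · exact absurd (statPos_lt hb hi) (not_lt.2 h1)
  · have := Nat.mul_le_mul_right (2 ^ m) hb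
    unfold statPos at h2
    omega

lemma colLab_statPos {m b i : ℕ} (hi : i < 2 ^ m) (hb : b < colD m ∨ colD m + colL m ≤ b) :
    colLab m (statPos m b i) = colStatic m b := by
  have hdiv : statPos m b i / 2 ^ m = b := by
    rw [statPos, Nat.add_comm, Nat.add_mul_div_right _ _ (Nat.two_pow_pos m),
      Nat.div_eq_of_lt hi, Nat.zero_add]
  rw [colLab_static, hdiv]
  rintro ⟨h1, h2⟩
  rcases hb with hb | hb
  · exact absurd (statPos_lt hb hi) (not_lt.2 h1)
  · have := Nat.mul_le_mul_right (2 ^ m) hb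
    unfold statPos at h2
    omega

lemma decode_split {W a r : ℕ} (hr : r < W) :
    (a * W + r) / W = a ∧ (a * W + r) % W = r := by
  constructor
  · rw [Nat.add_comm, Nat.add_mul_div_right _ _ (by omega), Nat.div_eq_of_lt hr, Nat.zero_add]
  · rw [Nat.mul_add_mod_self_right, Nat.mod_eq_of_lt hr]

lemma rowLab_dynPos {m J a h κ : ℕ} (hJ : J < 2 ^ m) (ha : a < nSlot m) (h1 : 1 ≤ h) (hm : h ≤ m)
    (hκ : κ < 2) :
    rowLab m (dynPos m (rowD m) (rowL m) J (rowIdx m a h κ)) = .dyn J a h κ := by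
  have hl := rowIdx_lt ha h1 hm hκ
  obtain ⟨e1, e2⟩ := decode_split (a := J) hl
  obtain ⟨e3, e4⟩ := decode_split (a := a) (show (h - 1) * 2 + κ < 2 * m by omega)
  rw [rowLab, if_pos (dynPos_range hJ hl), dynPos, Nat.add_sub_cancel_left, e1, e2,
    rowIdx, Nat.add_assoc, e3, e4]
  simp only [RowLab.dyn.injEq]
  refine ⟨trivial, trivial, ?_⟩
  omega

lemma colLab_dynPos {m J a g σ : ℕ} (hJ : J < 2 ^ m) (ha : a < nSlot m) (h1 : 1 ≤ g)
    (hm : g ≤ m + 1) (hσ : σ < 2) :
    colLab m (dynPos m (colD m) (colL m) J (colIdx m a g σ)) = .dyn J a g σ := by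
  have hl := colIdx_lt ha h1 hm hσ
  obtain ⟨e1, e2⟩ := decode_split (a := J) hl
  obtain ⟨e3, e4⟩ := decode_split (a := a) (show (g - 1) * 2 + σ < nCode m by unfold nCode; omega)
  rw [colLab, if_pos (dynPos_range hJ hl), dynPos, Nat.add_sub_cancel_left, e1, e2,
    colIdx, Nat.add_assoc, e3, e4]
  simp only [ColLab.dyn.injEq]
  refine ⟨trivial, trivial, ?_⟩
  omega

/-! The static blocks. -/

/-- Block of the reader of code `(g, c)` and kind `σ`. -/
def bReader (g c σ : ℕ) : ℕ := nTag + (((g - 1) * 2 + c) * 2 + σ)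

/-- Block of the all-columns row. -/
def bAll (m : ℕ) : ℕ := nTag + 2 * nCode m

/-- Block of the code-columns row. -/
def bCodeCols (m g c : ℕ) : ℕ := nTag + 2 * nCode m + 1 + ((g - 1) * 2 + c)

/-- Block of the root row. -/
def bRoot (m : ℕ) : ℕ := nTag + 3 * nCode m + 1

/-- Block of the code column `(g, c)`. -/
def bCode (g c : ℕ) : ℕ := nTag + 1 + ((g - 1) * 2 + c)

/-- Block of the kind column. -/
def bKind (m κ : ℕ) : ℕ := nTag + 1 + nCode m + κ

/-- Block of the left omega column. -/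
def bOmegaL (m g c : ℕ) : ℕ := nTag + 3 + nCode m + ((g - 1) * 2 + c)

/-- Block of the right omega column. -/
def bOmegaR (m g c : ℕ) : ℕ := colD m + colL m + ((g - 1) * 2 + c)

lemma rowStatic_tag {m b : ℕ} (hb : b < nTag) : rowStatic m b = .tag b := if_pos hb

lemma colStatic_tag {m b : ℕ} (hb : b ≤ nTag) : colStatic m b = .tag b :=
  if_pos (Nat.lt_succ_of_le hb)

lemma rowStatic_reader {m g c σ : ℕ} (h1 : 1 ≤ g) (hm : g ≤ m + 1) (hc : c < 2) (hσ : σ < 2) :
    rowStatic m (bReader g c σ) = .reader g c σ := by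
  unfold bReader rowStatic nCode
  rw [if_neg (by omega), if_pos (by omega)]
  simp only [RowLab.reader.injEq]
  omega

lemma rowStatic_all (m : ℕ) : rowStatic m (bAll m) = .allCols := by
  unfold bAll rowStatic
  rw [if_neg (by omega), if_neg (by omega), if_pos rfl]

lemma rowStatic_codeCols {m g c : ℕ} (h1 : 1 ≤ g) (hm : g ≤ m + 1) (hc : c < 2) :
    rowStatic m (bCodeCols m g c) = .codeCols g c := by
  unfold bCodeCols rowStatic nCode
  rw [if_neg (by omega), if_neg (by omega), if_neg (by omega), if_pos (by omega)]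
  simp only [RowLab.codeCols.injEq]
  omega

lemma rowStatic_root (m : ℕ) : rowStatic m (bRoot m) = .root := by
  unfold bRoot rowStatic nCode
  rw [if_neg (by omega), if_neg (by omega), if_neg (by omega), if_neg (by omega), if_pos rfl]

lemma rowStatic_centre (m : ℕ) : rowStatic m (rowD m + rowL m + 1) = .centre := by
  unfold rowStatic rowD nCode
  rw [if_neg (by omega), if_neg (by omega), if_neg (by omega), if_neg (by omega),
    if_neg (by omega), if_pos rfl]

lemma rowStatic_side {m b : ℕ} (hb : nTag + 3 * nCode m + 2 ≤ b)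
    (hne : b ≠ rowD m + rowL m + 1) : rowStatic m b = .side := by
  unfold rowStatic
  rw [if_neg (by omega), if_neg (by omega), if_neg (by omega), if_neg (by omega),
    if_neg (by omega), if_neg hne]

lemma colStatic_code {m g c : ℕ} (h1 : 1 ≤ g) (hm : g ≤ m + 1) (hc : c < 2) :
    colStatic m (bCode g c) = .code g c := by
  unfold bCode colStatic nCode
  rw [if_neg (by omega), if_pos (by omega)]
  simp only [ColLab.code.injEq]
  omega

lemma colStatic_kind {m κ : ℕ} (hκ : κ < 2) : colStatic m (bKind m κ) = .kind κ := by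
  unfold bKind colStatic
  rw [if_neg (by omega), if_neg (by omega), if_pos (by omega)]
  simp only [ColLab.kind.injEq]
  omega

lemma colStatic_omegaL {m g c : ℕ} (h1 : 1 ≤ g) (hm : g ≤ m + 1) (hc : c < 2) :
    colStatic m (bOmegaL m g c) = .omega g c := by
  unfold bOmegaL colStatic colD nCode
  rw [if_neg (by omega), if_neg (by omega), if_neg (by omega), if_pos (by omega)]
  simp only [ColLab.omega.injEq]
  omega

lemma colStatic_omegaR {m g c : ℕ} (h1 : 1 ≤ g) (hm : g ≤ m + 1) (hc : c < 2) :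
    colStatic m (bOmegaR m g c) = .omega g c := by
  have hlt : (g - 1) * 2 + c < nCode m := by unfold nCode; omega
  unfold bOmegaR colStatic
  rw [if_neg (by unfold colD; omega), if_neg (by unfold colD; omega),
    if_neg (by unfold colD; omega), if_neg (by omega), Nat.add_sub_cancel_left,
    Nat.mod_eq_of_lt hlt]
  simp only [ColLab.omega.injEq]
  omega

end Vale.Agent.P037CE
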