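import Mathlib
import Vale.Agent.P037CE.Labels

/-! Elementary facts on the tag block and on the layout. -/

namespace Vale.Agent.P037CE

lemma nBits_eq : nBits = 15 := rfl

lemma nTag_gt_bits : nBits + 2 ≤ nTag := by
  unfold nTag nBits; norm_num

lemma tagVal_last {j : ℕ} (hj : j ≤ nTag) : tagVal (nTag - 1) j = true := by
  have hb := nTag_gt_bits
  unfold tagVal
  split
  · rfl
  · split
    · unfold nTag
      rw [Nat.testBit_two_pow_sub_one]
      simp only [decide_eq_true_eq]
      omega
    · simp only [decide_eq_true_eq]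
      right
      unfold nBits at *
      omega

lemma tag_rows_ext {i i' : ℕ} (hi : i < nTag) (hi' : i' < nTag)
    (h : ∀ j ≤ nTag, tagVal i j = tagVal i' j) : i = i' := by
  refine Nat.eq_of_testBit_eq fun b => ?_
  by_cases hb : b < nBits
  · have hn := nTag_gt_bits
    have := h (b + 1) (by omega)
    simpa [tagVal, show b + 1 ≤ nBits from hb] using this
  · have hle : 2 ^ nBits ≤ 2 ^ b := Nat.pow_le_pow_right (by norm_num) (not_lt.1 hb)
    rw [Nat.testBit_lt_two_pow (lt_of_lt_of_le hi hle),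
      Nat.testBit_lt_two_pow (lt_of_lt_of_le hi' hle)]

lemma tag_cols_ext {j j' : ℕ} (hj : j ≤ nTag) (hj' : j' ≤ nTag)
    (h : ∀ i < nTag, tagVal i j = tagVal i j') : j = j' := by
  have hn := nTag_gt_bits
  by_contra hne
  wlog hlt : j < j' generalizing j j'
  · exact this hj' hj (fun i hi => (h i hi).symm) (Ne.symm hne) (by omega)
  by_cases h0 : j = 0
  · subst h0
    by_cases hb : j' ≤ nBits
    · have := h 0 (by omega)
      simp [tagVal, hb, show j' ≠ 0 by omega] at this
    · have := h 1 (by omega)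
      simp [tagVal, hb, show j' ≠ 0 by omega] at this
      omega
  by_cases hb : j' ≤ nBits
  · have hlt' : 2 ^ (j - 1) < nTag := Nat.pow_lt_pow_right (by norm_num) (by omega)
    have := h (2 ^ (j - 1)) hlt'
    simp [tagVal, h0, show j ≤ nBits by omega, hb, show j' ≠ 0 by omega,
      Nat.testBit_two_pow] at this
    omega
  by_cases hbj : j ≤ nBits
  · have := h 0 (by omega)
    simp [tagVal, h0, hbj, hb, show j' ≠ 0 by omega] at this
  · have := h (j - nBits + 1) (by unfold nBits at *; omega)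
    simp [tagVal, h0, hbj, hb, show j' ≠ 0 by omega] at this
    omega

/-! ### Layout -/

lemma rowStatic_eq_tag {m b t : ℕ} (h : rowStatic m b = .tag t) : b = t ∧ b < nTag := by
  by_cases hb : b < nTag
  · rw [rowStatic, if_pos hb] at h
    injection h with e
    exact ⟨e, hb⟩
  · rw [rowStatic, if_neg hb] at h
    repeat' split at h
    all_goals cases h

lemma colStatic_eq_tag {m b t : ℕ} (h : colStatic m b = .tag t) : b = t ∧ b ≤ nTag := by
  by_cases hb : b < nTag + 1
  · rw [colStatic, if_pos hb] at h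
    injection h with e
    exact ⟨e, Nat.le_of_lt_succ hb⟩
  · rw [colStatic, if_neg hb] at h
    repeat' split at h
    all_goals cases h

lemma rowLab_eq_tag {m p t : ℕ} : rowLab m p = .tag t ↔ p / 2 ^ m = t ∧ t < nTag := by
  have hw : 0 < 2 ^ m := Nat.two_pow_pos m
  constructor
  · intro h
    by_cases hr : rowD m * 2 ^ m ≤ p ∧ p < (rowD m + rowL m) * 2 ^ m
    · rw [rowLab, if_pos hr] at h; cases h
    · rw [rowLab_static hr] at h
      obtain ⟨e, hb⟩ := rowStatic_eq_tag h
      exact ⟨e, e ▸ hb⟩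
  · rintro ⟨rfl, ht⟩
    have hlt : p < rowD m * 2 ^ m := by
      rw [← Nat.div_lt_iff_lt_mul hw]; unfold rowD; omega
    rw [rowLab_static (fun h => absurd h.1 (not_le.2 hlt)), rowStatic, if_pos ht]

lemma colLab_eq_tag {m p t : ℕ} : colLab m p = .tag t ↔ p / 2 ^ m = t ∧ t ≤ nTag := by
  have hw : 0 < 2 ^ m := Nat.two_pow_pos m
  constructor
  · intro h
    by_cases hr : colD m * 2 ^ m ≤ p ∧ p < (colD m + colL m) * 2 ^ m
    · rw [colLab, if_pos hr] at h; cases h
    · rw [colLab_static hr] at h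
      obtain ⟨e, hb⟩ := colStatic_eq_tag h
      exact ⟨e, e ▸ hb⟩
  · rintro ⟨rfl, ht⟩
    have hlt : p < colD m * 2 ^ m := by
      rw [← Nat.div_lt_iff_lt_mul hw]; unfold colD; omega
    rw [colLab_static (fun h => absurd h.1 (not_le.2 hlt)), colStatic, if_pos (Nat.lt_succ_of_le ht)]

/-- Up-closedness of the core rows. -/
lemma rowLab_core_mono {m p q : ℕ} (hpq : p ≤ q) (hp : ∀ t, rowLab m p ≠ .tag t) :
    ∀ t, rowLab m q ≠ .tag t := by
  intro t ht
  rw [rowLab_eq_tag] at ht
  obtain ⟨rfl, hlt⟩ := ht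
  exact hp _ (rowLab_eq_tag.2 ⟨rfl, lt_of_le_of_lt (Nat.div_le_div_right hpq) hlt⟩)

/-- Up-closedness of the core columns. -/
lemma colLab_core_mono {m p q : ℕ} (hpq : p ≤ q) (hp : ∀ t, colLab m p ≠ .tag t) :
    ∀ t, colLab m q ≠ .tag t := by
  intro t ht
  rw [colLab_eq_tag] at ht
  obtain ⟨rfl, hlt⟩ := ht
  exact hp _ (colLab_eq_tag.2 ⟨rfl, (Nat.div_le_div_right hpq).trans hlt⟩)

lemma entry_tag_core {m i : ℕ} {cl : ColLab} (h : ∀ t, cl ≠ .tag t) :
    entry m (.tag i) cl = colSig cl.band i := by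
  cases cl with
  | tag t => exact absurd rfl (h t)
  | code => rfl
  | kind => rfl
  | omega => rfl
  | dyn => rfl

lemma entry_core_tag {m j : ℕ} {rl : RowLab} (h : ∀ t, rl ≠ .tag t) :
    entry m rl (.tag j) = rowSig rl.band j := by
  cases rl with
  | tag t => exact absurd rfl (h t)
  | reader => rfl
  | allCols => rfl
  | codeCols => rfl
  | root => rfl
  | side => rfl
  | centre => rfl
  | dyn => rfl

end Vale.Agent.P037CE
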