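import Mathlib
import Vale.Agent.P037CE.Layout
import Vale.Agent.P037CE.Tags

/-!
A matrix close to the counterexample agrees with it on all static crosses of one sample, and a
placement of the gadget inside such a sample gives a copy of the pattern.
-/

namespace Vale.Agent.P037CE

open Finset Vale.Agent.P037

variable {m : ℕ} {B : Fin (side m) → Fin (side m) → Bool} {J i i' : ℕ}

/-- The entries of `B`, indexed by natural numbers. -/
def ent (B : Fin (side m) → Fin (side m) → Bool) (p q : ℕ) : Bool :=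
  if h : p < side m ∧ q < side m then B ⟨p, h.1⟩ ⟨q, h.2⟩ else false

/-- A static row of the sample with a given label. -/
def SR (m i p : ℕ) (l : RowLab) : Prop :=
  (∃ b < nBlock m, p = statPos m b i) ∧ rowLab m p = l

/-- A dynamic row of the sample with a given label. -/
def DR (m J p : ℕ) (l : RowLab) : Prop :=
  (∃ t < rowL m, p = dynPos m (rowD m) (rowL m) J t) ∧ rowLab m p = l

/-- A static column of the sample with a given label. -/
def SC (m i' q : ℕ) (l : ColLab) : Prop :=
  (∃ b < nBlock m, q = statPos m b i') ∧ colLab m q = l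

/-- A dynamic column of the sample with a given label. -/
def DC (m J q : ℕ) (l : ColLab) : Prop :=
  (∃ t < colL m, q = dynPos m (colD m) (colL m) J t) ∧ colLab m q = l

/-- `B` agrees with the counterexample on the static crosses of the sample `(J, i, i')`. -/
structure Agree (B : Fin (side m) → Fin (side m) → Bool) (J i i' : ℕ) : Prop where
  hJ : J < 2 ^ m
  hi : i < 2 ^ m
  hi' : i' < 2 ^ m
  ss : ∀ b < nBlock m, ∀ b' < nBlock m, ent B (statPos m b i) (statPos m b' i') =
    entry m (rowLab m (statPos m b i)) (colLab m (statPos m b' i'))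
  sd : ∀ b < nBlock m, ∀ t < colL m,
    ent B (statPos m b i) (dynPos m (colD m) (colL m) J t) =
      entry m (rowLab m (statPos m b i)) (colLab m (dynPos m (colD m) (colL m) J t))
  ds : ∀ t < rowL m, ∀ b' < nBlock m,
    ent B (dynPos m (rowD m) (rowL m) J t) (statPos m b' i') =
      entry m (rowLab m (dynPos m (rowD m) (rowL m) J t)) (colLab m (statPos m b' i'))

lemma Agree.eSS (h : Agree B J i i') {p q : ℕ} {l : RowLab} {l' : ColLab}
    (hp : SR m i p l) (hq : SC m i' q l') : ent B p q = entry m l l' := by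
  obtain ⟨⟨b, hb, rfl⟩, rfl⟩ := hp
  obtain ⟨⟨b', hb', rfl⟩, rfl⟩ := hq
  exact h.ss b hb b' hb'

lemma Agree.eSD (h : Agree B J i i') {p q : ℕ} {l : RowLab} {l' : ColLab}
    (hp : SR m i p l) (hq : DC m J q l') : ent B p q = entry m l l' := by
  obtain ⟨⟨b, hb, rfl⟩, rfl⟩ := hp
  obtain ⟨⟨t, ht, rfl⟩, rfl⟩ := hq
  exact h.sd b hb t ht

lemma Agree.eDS (h : Agree B J i i') {p q : ℕ} {l : RowLab} {l' : ColLab}
    (hp : DR m J p l) (hq : SC m i' q l') : ent B p q = entry m l l' := by
  obtain ⟨⟨t, ht, rfl⟩, rfl⟩ := hp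
  obtain ⟨⟨b', hb', rfl⟩, rfl⟩ := hq
  exact h.ds t ht b' hb'

/-- A row of the sample in a given band. -/
def RowOk (m J i p band : ℕ) : Prop := ∃ l : RowLab, l.band = band ∧ (SR m i p l ∨ DR m J p l)

/-- A column of the sample in a given band. -/
def ColOk (m J i' q band : ℕ) : Prop := ∃ l : ColLab, l.band = band ∧ (SC m i' q l ∨ DC m J q l)

lemma rowD_add_rowL_le (m : ℕ) : rowD m + rowL m + 3 ≤ nBlock m := by
  have : rowL m ≤ colL m := Nat.mul_le_mul_left _ (by unfold nCode; omega)
  unfold rowD nBlock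
  omega

lemma colD_add_colL_le (m : ℕ) : colD m + colL m + nCode m ≤ nBlock m := by
  unfold colD nBlock
  omega

lemma RowOk.lt (h : Agree B J i i') {p band : ℕ} (hp : RowOk m J i p band) : p < side m := by
  rcases hp with ⟨l, _, ⟨⟨b, hb, rfl⟩, _⟩ | ⟨⟨t, ht, rfl⟩, _⟩⟩
  · exact statPos_lt hb h.hi
  · exact (dynPos_range h.hJ ht).2.trans_le
      (Nat.mul_le_mul_right _ (by have := rowD_add_rowL_le m; omega))

lemma ColOk.lt (h : Agree B J i i') {q band : ℕ} (hq : ColOk m J i' q band) : q < side m := by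
  rcases hq with ⟨l, _, ⟨⟨b, hb, rfl⟩, _⟩ | ⟨⟨t, ht, rfl⟩, _⟩⟩
  · exact statPos_lt hb h.hi'
  · exact (dynPos_range h.hJ ht).2.trans_le
      (Nat.mul_le_mul_right _ (by have := colD_add_colL_le m; omega))

lemma six_strictMono {a b c d e f : ℕ} (h1 : a < b) (h2 : b < c) (h3 : c < d) (h4 : d < e)
    (h5 : e < f) : StrictMono ![a, b, c, d, e, f] := by
  rw [Fin.strictMono_iff_lt_succ]
  intro t
  fin_cases t <;> simpa

lemma five_strictMono {a b c d e : ℕ} (h1 : a < b) (h2 : b < c) (h3 : c < d) (h4 : d < e) :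
    StrictMono ![a, b, c, d, e] := by
  rw [Fin.strictMono_iff_lt_succ]
  intro t
  fin_cases t <;> simpa

/-- No gadget sits in the sample of an `H`-free matrix. -/
theorem no_gadget (hfree : IsFree patH B) (hag : Agree B J i i') (R : Fin 6 → ℕ) (C : Fin 5 → ℕ)
    (hR : StrictMono R) (hC : StrictMono C) (hR0 : nTag * 2 ^ m ≤ R 0)
    (hC0 : (nTag + 1) * 2 ^ m ≤ C 0) (hRok : ∀ a, RowOk m J i (R a) (gadgetRowBand a))
    (hCok : ∀ b, ColOk m J i' (C b) (gadgetColBand b))
    (hval : ∀ a b, ent B (R a) (C b) = gadget a b) : False := by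
  have hk : kH = nTag + 6 := rfl
  have hP : nTag + 1 ≤ nBlock m := by unfold nBlock; omega
  have hRge : ∀ a, nTag * 2 ^ m ≤ R a := fun a => hR0.trans (hR.monotone (Fin.zero_le a))
  have hCge : ∀ b, (nTag + 1) * 2 ^ m ≤ C b := fun b => hC0.trans (hC.monotone (Fin.zero_le b))
  let rn : Fin kH → ℕ := fun t =>
    if h : t.val < nTag then statPos m t.val i else R ⟨t.val - nTag, by omega⟩
  let cn : Fin kH → ℕ := fun t =>
    if h : t.val < nTag + 1 then statPos m t.val i' else C ⟨t.val - (nTag + 1), by omega⟩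
  have hrn : StrictMono rn := by
    intro a b hab
    simp only [rn]
    have hab' : a.val < b.val := hab
    split_ifs with ha hb hb
    · exact lt_of_lt_of_le (statPos_lt hab' hag.hi) (Nat.le_add_right _ _)
    · exact lt_of_lt_of_le (statPos_lt ha hag.hi) (hRge _)
    · omega
    · exact hR (Fin.mk_lt_mk.2 (by omega))
  have hcn : StrictMono cn := by
    intro a b hab
    simp only [cn]
    have hab' : a.val < b.val := hab
    split_ifs with ha hb hb
    · exact lt_of_lt_of_le (statPos_lt hab' hag.hi') (Nat.le_add_right _ _)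
    · exact lt_of_lt_of_le (statPos_lt ha hag.hi') (hCge _)
    · omega
    · exact hC (Fin.mk_lt_mk.2 (by omega))
  have hrlt : ∀ t, rn t < side m := by
    intro t
    simp only [rn]
    split
    · exact statPos_lt (by omega) hag.hi
    · exact (hRok _).lt hag
  have hclt : ∀ t, cn t < side m := by
    intro t
    simp only [cn]
    split
    · exact statPos_lt (by omega) hag.hi'
    · exact (hCok _).lt hag
  refine hfree (fun t => ⟨rn t, hrlt t⟩) (fun t => ⟨cn t, hclt t⟩) ⟨hrn, hcn, fun a b => ?_⟩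
  have hB : B ⟨rn a, hrlt a⟩ ⟨cn b, hclt b⟩ = ent B (rn a) (cn b) := by
    simp [ent, hrlt a, hclt b]
  rw [hB]
  have htagR : ∀ t < nTag, SR m i (statPos m t i) (.tag t) := fun t ht =>
    ⟨⟨t, by omega, rfl⟩, by
      rw [rowLab_statPos hag.hi (Or.inl (by unfold rowD; omega)), rowStatic_tag ht]⟩
  have htagC : ∀ t ≤ nTag, SC m i' (statPos m t i') (.tag t) := fun t ht =>
    ⟨⟨t, by omega, rfl⟩, by
      rw [colLab_statPos hag.hi' (Or.inl (by unfold colD; omega)), colStatic_tag ht]⟩
  simp only [rn, cn]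
  unfold patH
  split_ifs with ha hb hb
  · exact hag.eSS (htagR _ ha) (htagC _ (by omega))
  · obtain ⟨l, hl, hq⟩ := hCok ⟨b.val - (nTag + 1), by omega⟩
    have hne : ∀ t, l ≠ .tag t := by
      rintro t rfl
      have h2 := hCge ⟨b.val - (nTag + 1), by omega⟩
      obtain ⟨e1, e2⟩ := colLab_eq_tag.1 (show colLab m _ = ColLab.tag t by
        rcases hq with hq | hq <;> exact hq.2)
      have := (Nat.le_div_iff_mul_le (Nat.two_pow_pos m)).2 h2
      omega
    dsimp only at hl
    rw [← hl]
    rcases hq with hq | hq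
    · exact (hag.eSS (htagR _ ha) hq).trans (entry_tag_core hne)
    · exact (hag.eSD (htagR _ ha) hq).trans (entry_tag_core hne)
  · obtain ⟨l, hl, hp⟩ := hRok ⟨a.val - nTag, by omega⟩
    have hne : ∀ t, l ≠ .tag t := by
      rintro t rfl
      have h2 := hRge ⟨a.val - nTag, by omega⟩
      obtain ⟨e1, e2⟩ := rowLab_eq_tag.1 (show rowLab m _ = RowLab.tag t by
        rcases hp with hp | hp <;> exact hp.2)
      have := (Nat.le_div_iff_mul_le (Nat.two_pow_pos m)).2 h2
      omega
    dsimp only at hl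
    rw [← hl]
    rcases hp with hp | hp
    · exact (hag.eSS hp (htagC _ (by omega))).trans (entry_core_tag hne)
    · exact (hag.eDS hp (htagC _ (by omega))).trans (entry_core_tag hne)
  · exact hval _ _

/-- The count of triples of a sample killed by one cell class. -/
lemma card_bad {w : ℕ} {D : Finset (ℕ × ℕ)} (key : ℕ × ℕ × ℕ → ℕ) (cell : ℕ × ℕ × ℕ → ℕ × ℕ)
    (hkey : ∀ t ∈ range w ×ˢ (range w ×ˢ range w), key t < w)
    (hinj : ∀ t t', key t = key t' → cell t = cell t' → t = t') :
    ((range w ×ˢ (range w ×ˢ range w)).filter fun t => cell t ∈ D).card ≤ w * D.card := by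
  have h : (range w ×ˢ D).card = w * D.card := by rw [card_product, card_range]
  rw [← h]
  refine card_le_card_of_injOn (fun t => (key t, cell t)) (fun t ht => ?_) ?_
  · obtain ⟨h1, h2⟩ := mem_filter.1 ht
    exact mem_product.2 ⟨mem_range.2 (hkey t h1), h2⟩
  · intro t _ t' _ he
    exact hinj t t' (congrArg Prod.fst he) (congrArg Prod.snd he)

lemma statPos_inj {b i i' : ℕ} (h : statPos m b i = statPos m b i') : i = i' := by
  unfold statPos at h; omega

lemma dynPos_inj {D L J J' l : ℕ} (hL : 0 < L) (h : dynPos m D L J l = dynPos m D L J' l) :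
    J = J' := by
  unfold dynPos at h
  exact Nat.eq_of_mul_eq_mul_right hL (by omega)

/-- The cells on which two matrices differ, as pairs of natural numbers. -/
def diffCells (B : Fin (side m) → Fin (side m) → Bool) : Finset (ℕ × ℕ) :=
  (univ.filter fun p : Fin (side m) × Fin (side m) => matA m p.1 p.2 ≠ B p.1 p.2).image
    fun p => (p.1.val, p.2.val)

lemma mem_diffCells {p q : ℕ} (hp : p < side m) (hq : q < side m)
    (h : ent B p q ≠ entry m (rowLab m p) (colLab m q)) : (p, q) ∈ diffCells B := by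
  refine mem_image.2 ⟨(⟨p, hp⟩, ⟨q, hq⟩), mem_filter.2 ⟨mem_univ _, ?_⟩, rfl⟩
  intro he
  apply h
  rw [ent, dif_pos ⟨hp, hq⟩]
  exact he.symm

/-- A matrix with few changes has a sample with unchanged static crosses. -/
theorem exists_agree (hsmall : 3 * nBlock m ^ 2 *
    (univ.filter fun p : Fin (side m) × Fin (side m) => matA m p.1 p.2 ≠ B p.1 p.2).card <
      (2 ^ m) ^ 2) : ∃ J i i', Agree B J i i' := by
  classical
  set w := 2 ^ m with hw
  set P := nBlock m with hPdef
  set T := range w ×ˢ (range w ×ˢ range w) with hT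
  set D := diffCells B with hD
  by_contra hno
  have hdc : D.card ≤
      (univ.filter fun p : Fin (side m) × Fin (side m) => matA m p.1 p.2 ≠ B p.1 p.2).card :=
    card_image_le
  let f1 : ℕ × ℕ → Finset (ℕ × ℕ × ℕ) := fun k => T.filter fun t =>
    (statPos m k.1 t.2.1, statPos m k.2 t.2.2) ∈ D
  let f2 : ℕ × ℕ → Finset (ℕ × ℕ × ℕ) := fun k => T.filter fun t =>
    (statPos m k.1 t.2.1, dynPos m (colD m) (colL m) t.1 k.2) ∈ D
  let f3 : ℕ × ℕ → Finset (ℕ × ℕ × ℕ) := fun k => T.filter fun t =>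
    (dynPos m (rowD m) (rowL m) t.1 k.1, statPos m k.2 t.2.2) ∈ D
  let U1 := (range P ×ˢ range P).biUnion f1
  let U2 := (range P ×ˢ range (colL m)).biUnion f2
  let U3 := (range (rowL m) ×ˢ range P).biUnion f3
  have hcover : T ⊆ U1 ∪ U2 ∪ U3 := by
    rintro ⟨J, i, i'⟩ ht
    obtain ⟨hJ, hi, hi'⟩ : J < w ∧ i < w ∧ i' < w := by
      simpa [hT] using ht
    by_contra hn
    simp only [Finset.mem_union, not_or] at hn
    refine hno ⟨J, i, i', hJ, hi, hi', fun b hb b' hb' => ?_, fun b hb t hlt => ?_,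
      fun t hlt b' hb' => ?_⟩
    all_goals by_contra he
    · exact hn.1.1 (mem_biUnion.2 ⟨(b, b'), mem_product.2 ⟨mem_range.2 hb, mem_range.2 hb'⟩,
        mem_filter.2 ⟨ht, mem_diffCells (statPos_lt hb hi) (statPos_lt hb' hi') he⟩⟩)
    · exact hn.1.2 (mem_biUnion.2 ⟨(b, t), mem_product.2 ⟨mem_range.2 hb, mem_range.2 hlt⟩,
        mem_filter.2 ⟨ht, mem_diffCells (statPos_lt hb hi) ((dynPos_range hJ hlt).2.trans_le
          (Nat.mul_le_mul_right _ (by have := colD_add_colL_le m; omega))) he⟩⟩)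
    · exact hn.2 (mem_biUnion.2 ⟨(t, b'), mem_product.2 ⟨mem_range.2 hlt, mem_range.2 hb'⟩,
        mem_filter.2 ⟨ht, mem_diffCells ((dynPos_range hJ hlt).2.trans_le
          (Nat.mul_le_mul_right _ (by have := rowD_add_rowL_le m; omega)))
          (statPos_lt hb' hi') he⟩⟩)
  have hmem : ∀ t ∈ T, t.1 < w ∧ t.2.1 < w ∧ t.2.2 < w := by
    intro t ht; simpa [hT] using ht
  have b1 : U1.card ≤ P * P * (w * D.card) := by
    refine (card_biUnion_le_card_mul _ _ (w * D.card) fun k _ => ?_).trans (le_of_eq (by simp))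
    refine card_bad (fun t => t.1) (fun t => (statPos m k.1 t.2.1, statPos m k.2 t.2.2))
      (fun t ht => (hmem t ht).1) fun t t' h1 h2 => ?_
    obtain ⟨e1, e2⟩ := Prod.mk.injEq .. ▸ h2
    exact Prod.ext h1 (Prod.ext (statPos_inj e1) (statPos_inj e2))
  have b2 : U2.card ≤ P * colL m * (w * D.card) := by
    refine (card_biUnion_le_card_mul _ _ (w * D.card) fun k hk => ?_).trans (le_of_eq (by simp))
    refine card_bad (fun t => t.2.2)
      (fun t => (statPos m k.1 t.2.1, dynPos m (colD m) (colL m) t.1 k.2))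
      (fun t ht => (hmem t ht).2.2) fun t t' h1 h2 => ?_
    obtain ⟨e1, e2⟩ := Prod.mk.injEq .. ▸ h2
    exact Prod.ext (dynPos_inj (by have := mem_range.1 (mem_product.1 hk).2; omega) e2)
      (Prod.ext (statPos_inj e1) h1)
  have b3 : U3.card ≤ rowL m * P * (w * D.card) := by
    refine (card_biUnion_le_card_mul _ _ (w * D.card) fun k hk => ?_).trans (le_of_eq (by simp))
    refine card_bad (fun t => t.2.1)
      (fun t => (dynPos m (rowD m) (rowL m) t.1 k.1, statPos m k.2 t.2.2))
      (fun t ht => (hmem t ht).2.1) fun t t' h1 h2 => ?_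
    obtain ⟨e1, e2⟩ := Prod.mk.injEq .. ▸ h2
    exact Prod.ext (dynPos_inj (by have := mem_range.1 (mem_product.1 hk).1; omega) e1)
      (Prod.ext h1 (statPos_inj e2))
  have hTc : T.card = w * (w * w) := by simp [hT]
  have hc : colL m ≤ P := by have := colD_add_colL_le m; omega
  have hr : rowL m ≤ P := by have := rowD_add_rowL_le m; omega
  have h0 := (card_le_card hcover).trans
    ((card_union_le _ _).trans (Nat.add_le_add_right (card_union_le _ _) _))
  have h1 : w * (w * w) ≤ w * (3 * P ^ 2 * D.card) := by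
    have h2 : P * colL m * (w * D.card) ≤ P * P * (w * D.card) :=
      Nat.mul_le_mul_right _ (Nat.mul_le_mul_left _ hc)
    have h3 : rowL m * P * (w * D.card) ≤ P * P * (w * D.card) :=
      Nat.mul_le_mul_right _ (Nat.mul_le_mul_right _ hr)
    have e : w * (3 * P ^ 2 * D.card) = 3 * (P * P * (w * D.card)) := by ring
    rw [e]
    omega
  have h4 : w * w ≤ 3 * P ^ 2 * D.card := Nat.le_of_mul_le_mul_left h1 (Nat.two_pow_pos m)
  have h5 : 3 * P ^ 2 * D.card ≤ 3 * P ^ 2 *
      (univ.filter fun p : Fin (side m) × Fin (side m) => matA m p.1 p.2 ≠ B p.1 p.2).card :=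
    Nat.mul_le_mul_left _ hdc
  rw [← sq] at h4
  omega

end Vale.Agent.P037CE
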