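import Mathlib
import Vale.Agent.P037CE.Labels

/-! The core rows shatter no twelve core columns. -/

namespace Vale.Agent.P037CE

open Finset

/-- A row label of the core. -/
def RowLab.IsCore : RowLab → Prop
  | .tag _ => False
  | _ => True

lemma dyn_interval {m : ℕ} {l : RowLab} (hl : l.IsCore) {J₁ J₂ J₃ a₁ a₂ a₃ g₁ g₂ g₃ σ₁ σ₂ σ₃ : ℕ}
    (h₁ : J₁ ≤ J₂) (h₂ : J₂ ≤ J₃)
    (e₁ : entry m l (.dyn J₁ a₁ g₁ σ₁) = true) (e₂ : entry m l (.dyn J₂ a₂ g₂ σ₂) = false)
    (e₃ : entry m l (.dyn J₃ a₃ g₃ σ₃) = true) :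
    (∃ g c σ, l = .reader g c σ) ∨ (∃ g c, l = .codeCols g c) ∨ l = .centre := by
  cases l with
  | tag => exact hl.elim
  | reader g c σ => exact Or.inl ⟨g, c, σ, rfl⟩
  | codeCols g c => exact Or.inr (Or.inl ⟨g, c, rfl⟩)
  | centre => exact Or.inr (Or.inr rfl)
  | allCols => simp [entry] at e₂
  | root => simp [entry] at e₂
  | side => simp [entry] at e₂
  | dyn J a h κ =>
    simp only [entry, decide_eq_true_eq, decide_eq_false_iff_not] at e₁ e₂ e₃
    exact absurd (e₃.trans (pre_between h₁ h₂ (e₁.symm.trans e₃)).symm) e₂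

/-- The core rows of any matrix of the family shatter no twelve ordered core columns. -/
theorem no_shatter {m : ℕ} (C : Fin 12 → ℕ) (hC : Monotone C)
    (hcore : ∀ j t, colLab m (C j) ≠ .tag t)
    (hsh : ∀ f : Fin 12 → Bool, ∃ l : RowLab, l.IsCore ∧
      ∀ j, entry m l (colLab m (C j)) = f j) : False := by
  classical
  set cl : Fin 12 → ColLab := fun j => colLab m (C j) with hcl
  let kindOf : ColLab → ℕ := fun c => match c with
    | .tag _ => 0
    | .code _ _ => 1
    | .kind _ => 2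
    | .omega _ _ => 3
    | .dyn _ _ _ _ => 4
  let grp : ℕ → Finset (Fin 12) := fun t => univ.filter fun j => kindOf (cl j) = t
  have hcases : 5 ≤ (grp 1).card ∨ 3 ≤ (grp 2).card ∨ 3 ≤ (grp 3).card ∨ 4 ≤ (grp 4).card := by
    have hu : (univ : Finset (Fin 12)) ⊆ grp 1 ∪ grp 2 ∪ grp 3 ∪ grp 4 := by
      intro j _
      have h := hcore j
      simp only [grp, Finset.mem_union, Finset.mem_filter, mem_univ, true_and]
      rcases hl : cl j with t | ⟨g, c⟩ | κ | ⟨g, c⟩ | ⟨J, a, g, σ⟩
      · exact absurd hl (h t)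
      all_goals simp [kindOf]
    have h := Finset.card_le_card hu
    have h1 := Finset.card_union_le (grp 1 ∪ grp 2 ∪ grp 3) (grp 4)
    have h2 := Finset.card_union_le (grp 1 ∪ grp 2) (grp 3)
    have h3 := Finset.card_union_le (grp 1) (grp 2)
    simp only [Finset.card_univ, Fintype.card_fin] at h
    omega
  rcases hcases with h | h | h | h
  · -- five codes
    obtain ⟨s, hs, hcard⟩ := Finset.exists_subset_card_eq h
    have hform : ∀ j ∈ s, ∃ g c, cl j = .code g c ∧ c < 2 := by
      intro j hj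
      have h1 := (Finset.mem_filter.1 (hs hj)).2
      have h2 := colLab_ok m (C j)
      rcases hl : cl j with t | ⟨g, c⟩ | κ | ⟨g, c⟩ | ⟨J, a, g, σ⟩
      all_goals simp [kindOf, hl] at h1
      simp only [hcl] at hl
      rw [hl] at h2
      exact ⟨g, c, rfl, h2.2.2⟩
    obtain ⟨j0, hj0⟩ := Finset.card_pos.1 (show 0 < s.card by omega)
    have hinj : ∀ i ∈ s, ∀ j ∈ s, cl i = cl j → i = j := by
      intro i _ j _ he
      obtain ⟨l, _, hl⟩ := hsh fun x => decide (x = i)
      have h1 := hl i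
      have h2 := hl j
      simp only [hcl] at he
      rw [he, h2] at h1
      simpa [eq_comm] using h1
    obtain ⟨l, hlc, hl⟩ := hsh fun x => decide (x ≠ j0)
    have h0 := hl j0
    have hrest : ∀ j ∈ s.erase j0, entry m l (cl j) = true := fun j hj =>
      (hl j).trans (by simp [(Finset.mem_erase.1 hj).1])
    have h4 : (s.erase j0).card = 4 := by rw [Finset.card_erase_of_mem hj0, hcard]
    obtain ⟨W, hW, hWmem⟩ : ∃ W : Finset ColLab, W.card ≤ 3 ∧
        ∀ g c, c < 2 → entry m l (.code g c) = true → ColLab.code g c ∈ W := by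
      obtain ⟨g0, c0, e0, _⟩ := hform j0 hj0
      simp only [hcl] at e0
      rw [e0] at h0
      cases l with
      | tag => exact hlc.elim
      | reader g c σ =>
        exact ⟨{.code g c}, by simp, fun g' c' _ h => by simp [entry] at h; simp [h.1, h.2]⟩
      | codeCols g c =>
        exact ⟨{.code g c}, by simp, fun g' c' _ h => by simp [entry] at h; simp [h.1, h.2]⟩
      | allCols => simp [entry] at h0
      | root =>
        exact ⟨{.code 1 0, .code 1 1}, Finset.card_le_two.trans (by norm_num),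
          fun g' c' hc h => by simp [entry] at h; subst h; interval_cases c' <;> simp⟩
      | side =>
        refine ⟨{.code 1 0, .code 1 1, .code (m + 1) 0}, Finset.card_le_three, fun g' c' hc h => ?_⟩
        simp [entry] at h
        rcases h with rfl | ⟨rfl, rfl⟩
        · interval_cases c' <;> simp
        · simp
      | centre =>
        exact ⟨{.code (m + 1) 0}, by simp, fun g' c' _ h => by simp [entry] at h; simp [h.1, h.2]⟩
      | dyn J a h' κ =>
        refine ⟨{.code (h' + 1) 0, .code (h' + 1) 1, .code h' (dig m h' J)}, Finset.card_le_three,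
          fun g' c' hc h => ?_⟩
        simp [entry] at h
        rcases h with rfl | ⟨rfl, rfl⟩
        · interval_cases c' <;> simp
        · simp
    have h5 : (s.erase j0).card ≤ W.card := by
      refine Finset.card_le_card_of_injOn cl (fun j hj => ?_)
        (fun i hi j hj he => hinj i (Finset.mem_of_mem_erase hi) j (Finset.mem_of_mem_erase hj) he)
      obtain ⟨g, c, e, hc⟩ := hform j (Finset.mem_of_mem_erase hj)
      rw [e]
      exact hWmem g c hc (e ▸ hrest j hj)
    omega
  · -- three kinds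
    obtain ⟨i, j, k, hi, hj, hk, hij, hik, hjk⟩ :=
      Finset.two_lt_card_iff.1 h
    have hform : ∀ x ∈ grp 2, ∃ κ, cl x = .kind κ ∧ κ < 2 := by
      intro x hx
      have h1 := (Finset.mem_filter.1 hx).2
      have h2 := colLab_ok m (C x)
      rcases hl : cl x with t | ⟨g, c⟩ | κ | ⟨g, c⟩ | ⟨J, a, g, σ⟩
      all_goals simp [kindOf, hl] at h1
      simp only [hcl] at hl
      rw [hl] at h2
      exact ⟨κ, rfl, h2⟩
    obtain ⟨a, ea, ha⟩ := hform i hi
    obtain ⟨b, eb, hb⟩ := hform j hj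
    obtain ⟨c, ec, hc⟩ := hform k hk
    have hne : ∀ {x y : Fin 12}, x ≠ y → cl x ≠ cl y := by
      intro x y hxy he
      obtain ⟨l, _, hl⟩ := hsh fun z => decide (z = x)
      have h1 := hl x
      have h2 := hl y
      simp only [hcl] at he
      rw [he, h2] at h1
      simp [Ne.symm hxy] at h1
    have h1 : a ≠ b := fun he => hne hij (by rw [ea, eb, he])
    have h2 : a ≠ c := fun he => hne hik (by rw [ea, ec, he])
    have h3 : b ≠ c := fun he => hne hjk (by rw [eb, ec, he])
    omega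
  · -- three omega columns
    obtain ⟨i, j, k, hi, hj, hk, hij, hik, hjk⟩ := Finset.two_lt_card_iff.1 h
    have hform : ∀ x ∈ grp 3, ∃ g c, cl x = .omega g c := by
      intro x hx
      have h1 := (Finset.mem_filter.1 hx).2
      rcases hl : cl x with t | ⟨g, c⟩ | κ | ⟨g, c⟩ | ⟨J, a, g, σ⟩
      all_goals simp [kindOf, hl] at h1
      exact ⟨g, c, rfl⟩
    obtain ⟨g1, c1, e1⟩ := hform i hi
    obtain ⟨g2, c2, e2⟩ := hform j hj
    obtain ⟨g3, c3, e3⟩ := hform k hk
    have key : ∀ {l : RowLab} {g c g' c' g'' c''}, l.IsCore → entry m l (.omega g c) = true →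
        entry m l (.omega g' c') = true → entry m l (.omega g'' c'') = false →
        g = g' ∧ c = c' ∧ ¬ (g'' = g ∧ c'' = c) := by
      intro l g c g' c' g'' c'' hl a1 a2 a3
      cases l <;> simp [entry] at a1 a2 a3
      · exact hl.elim
      all_goals exact ⟨a1.1.symm.trans a2.1, a1.2.symm.trans a2.2, fun h =>
        a3 (a1.1.trans h.1.symm) (a1.2.trans h.2.symm)⟩
    obtain ⟨l, hlc, hl⟩ := hsh fun z => decide (z ≠ k)
    obtain ⟨l', hlc', hl'⟩ := hsh fun z => decide (z ≠ j)
    have A := key (g := g1) (c := c1) (g' := g2) (c' := c2) (g'' := g3) (c'' := c3) hlc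
      (e1 ▸ (hl i).trans (by simp [hik])) (e2 ▸ (hl j).trans (by simp [hjk]))
      (e3 ▸ (hl k).trans (by simp))
    have B := key (g := g1) (c := c1) (g' := g3) (c' := c3) (g'' := g2) (c'' := c2) hlc'
      (e1 ▸ (hl' i).trans (by simp [hij])) (e3 ▸ (hl' k).trans (by simp [Ne.symm hjk]))
      (e2 ▸ (hl' j).trans (by simp))
    exact A.2.2 ⟨B.1.symm, B.2.1.symm⟩
  · -- four dynamic columns
    obtain ⟨s, hs, hcard⟩ := Finset.exists_subset_card_eq h
    let o := s.orderEmbOfFin hcard
    have hform : ∀ i : Fin 4, ∃ J a g σ, cl (o i) = .dyn J a g σ := by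
      intro i
      have h1 := (Finset.mem_filter.1 (hs (s.orderEmbOfFin_mem hcard i))).2
      rcases hl : cl (o i) with t | ⟨g, c⟩ | κ | ⟨g, c⟩ | ⟨J, a, g, σ⟩
      all_goals simp [o, kindOf] at hl h1
      all_goals simp [hl] at h1
      exact ⟨J, a, g, σ, rfl⟩
    choose J a g σ hd using hform
    have hJ : ∀ i i', i ≤ i' → J i ≤ J i' := by
      intro i i' hii
      obtain ⟨a1, _, q1⟩ := colLab_dyn_iff (hd i)
      obtain ⟨_, _, q2⟩ := colLab_dyn_iff (hd i')
      rw [q1, q2]
      exact Nat.div_le_div_right (Nat.sub_le_sub_right (hC (o.monotone hii)) _)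
    have pat : ∀ f : Fin 4 → Bool, ∃ l : RowLab, l.IsCore ∧
        ∀ i, entry m l (.dyn (J i) (a i) (g i) (σ i)) = f i := by
      intro f
      obtain ⟨l, hlc, hl⟩ := hsh fun x => decide (∃ i, o i = x ∧ f i = true)
      refine ⟨l, hlc, fun i => ?_⟩
      rw [← hd i]
      refine (hl (o i)).trans ?_
      cases hfi : f i
      · simp [hfi]
      · simp [hfi]
    obtain ⟨l, hlc, hl⟩ := pat fun i => decide (i = 0 ∨ i = 2)
    obtain ⟨l', hlc', hl'⟩ := pat fun i => decide (i = 0 ∨ i = 3)
    have f0 := hl 0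
    have f1 := hl 1
    have f2 := hl 2
    have f3 := hl 3
    have f0' := hl' 0
    have f1' := hl' 1
    have f2' := hl' 2
    have f3' := hl' 3
    simp at f0 f1 f2 f3 f0' f1' f2' f3'
    have k1 := dyn_interval hlc (hJ 0 1 (by decide)) (hJ 1 2 (by decide)) f0 f1 f2
    have k2 := dyn_interval hlc' (hJ 0 1 (by decide)) (hJ 1 3 (by decide)) f0' f1' f3'
    have hdig : ∀ J, dig m (m + 1) J = 0 := fun J => by simp [dig]
    rcases k1 with ⟨g1, c1, s1, rfl⟩ | ⟨g1, c1, rfl⟩ | rfl <;>
      rcases k2 with ⟨g2, c2, s2, rfl⟩ | ⟨g2, c2, rfl⟩ | rfl <;>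
      simp only [entry, decide_eq_true_eq, decide_eq_false_iff_not] at f0 f2 f3 f0' f2' f3' <;>
      grind

end Vale.Agent.P037CE
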