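import Mathlib
import Vale.Agent.P037CE.Labels

/-!
Soundness: every placement of the gadget, with its bands respected, forces a dynamic row and a
dynamic column in the same leaf.
-/

namespace Vale.Agent.P037CE

variable {m : ℕ}

/-- Either the code is the bottom group, or the row `P` pins the ancestor of depth `g - 1`. -/
lemma pin_row {g c : ℕ} {P : RowLab} {κ : ℕ} {Jz az gz σz : ℕ}
    (hPok : P.Ok m) (hg1 : 1 ≤ g) (hgG : g ≤ m)
    (hPband : P.band = 2) (hPe : entry m P (.code g c) = true)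
    (hPK : entry m P (.kind κ) = false) (hPz : entry m P (.dyn Jz az gz σz) = true) :
    g = 1 ∨ ∃ J a h κ', P = .dyn J a h κ' ∧ pre m (g - 1) J = pre m (g - 1) Jz := by
  cases P with
  | tag i => simp [RowLab.band] at hPband
  | reader => simp [RowLab.band] at hPband
  | allCols => simp [RowLab.band] at hPband
  | codeCols => simp [RowLab.band] at hPband
  | root => simp [entry] at hPK
  | side =>
    simp only [entry, decide_eq_true_eq] at hPe
    rcases hPe with h | h
    · exact Or.inl h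
    · omega
  | centre =>
    simp only [entry, decide_eq_true_eq] at hPe
    omega
  | dyn J a h κ' =>
    refine Or.inr ⟨J, a, h, κ', rfl, ?_⟩
    simp only [entry, decide_eq_true_eq] at hPe hPz
    refine pre_eq_of_le ?_ hPz
    rcases hPe with h' | h' <;> omega

/-- A band-respecting gadget forces a dynamic row and a dynamic column in the same leaf. -/
theorem gadget_sound (hm : 1 ≤ m) (R C : ℕ → ℕ)
    (hR : R 3 ≤ R 4 ∧ R 4 ≤ R 5) (hC : C 2 ≤ C 3 ∧ C 3 ≤ C 4)
    (hRb : ∀ i < 6, (rowLab m (R i)).band = gadgetRowBand i ∧ ∀ t, rowLab m (R i) ≠ .tag t)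
    (hCb : ∀ j < 5, (colLab m (C j)).band = gadgetColBand j ∧ ∀ t, colLab m (C j) ≠ .tag t)
    (hval : ∀ i < 6, ∀ j < 5, entry m (rowLab m (R i)) (colLab m (C j)) = gadget i j) :
    ∃ J a h κ b g σ, rowLab m (R 2) = .dyn J a h κ ∧ colLab m (C 3) = .dyn J b g σ := by
  -- the reader and the code
  have hf : ∃ g c σ, rowLab m (R 0) = .reader g c σ := by
    have h := hRb 0 (by norm_num)
    rcases hl : rowLab m (R 0) with i | ⟨g, c, σ⟩ | _ | ⟨g, c⟩ | _ | _ | _ | ⟨J, a, h', κ⟩
    all_goals simp [hl, RowLab.band, gadgetRowBand] at h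
    exact ⟨g, c, σ, rfl⟩
  obtain ⟨g, c, σ, hf⟩ := hf
  have he : colLab m (C 0) = .code g c := by
    have h := hCb 0 (by norm_num)
    have hv := hval 0 (by norm_num) 0 (by norm_num)
    rcases hl : colLab m (C 0) with j | ⟨g', c'⟩ | κ | ⟨g', c'⟩ | ⟨J, a, g', τ⟩
    all_goals simp [hl, hf, ColLab.band, gadgetColBand, entry, gadget] at h hv
    simp [hv.1, hv.2]
  obtain ⟨κ, hK⟩ : ∃ κ, colLab m (C 1) = .kind κ := by
    have h := hCb 1 (by norm_num)
    rcases hl : colLab m (C 1) with j | ⟨g', c'⟩ | κ | ⟨g', c'⟩ | ⟨J, a, g', τ⟩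
    all_goals simp [hl, ColLab.band, gadgetColBand] at h
    exact ⟨κ, rfl⟩
  have hcodeOk : 1 ≤ g ∧ g ≤ m + 1 ∧ c < 2 := by
    have h := colLab_ok m (C 0)
    rwa [he] at h
  -- the row `x` and the column `z`
  have hx := hRb 4 (by norm_num)
  have hxe : entry m (rowLab m (R 4)) (.code g c) = true := by
    rw [← he]; exact (hval 4 (by norm_num) 0 (by norm_num)).trans (by simp [gadget])
  have hxK : entry m (rowLab m (R 4)) (.kind κ) = false := by
    rw [← hK]; exact (hval 4 (by norm_num) 1 (by norm_num)).trans (by simp [gadget])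
  have hxz : entry m (rowLab m (R 4)) (colLab m (C 3)) = false :=
    (hval 4 (by norm_num) 3 (by norm_num)).trans (by simp [gadget])
  obtain ⟨Jz, az, gz, σz, hz⟩ : ∃ J a g' τ, colLab m (C 3) = .dyn J a g' τ := by
    have h := hCb 3 (by norm_num)
    rcases hl : colLab m (C 3) with j | ⟨g', c'⟩ | κ' | ⟨g', c'⟩ | ⟨J, a, g', τ⟩
    all_goals simp [hl, ColLab.band, gadgetColBand] at h
    · exfalso
      rw [hl] at hxz
      rcases hl4 : rowLab m (R 4) with i | ⟨g, c, σ⟩ | _ | ⟨g, c⟩ | _ | _ | _ | ⟨J, a, h', κ'⟩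
      all_goals simp [hl4, RowLab.band, gadgetRowBand, entry] at hx hxz
    · exact ⟨J, a, g', τ, rfl⟩
  have hJz : Jz < 2 ^ m := by
    have h := colLab_ok m (C 3)
    rw [hz] at h
    exact h.1
  rw [hz] at hxz
  -- the row `r`
  have hr := hRb 2 (by norm_num)
  have hre : entry m (rowLab m (R 2)) (.code g c) = true := by
    rw [← he]; exact (hval 2 (by norm_num) 0 (by norm_num)).trans (by simp [gadget])
  have hrK : entry m (rowLab m (R 2)) (.kind κ) = true := by
    rw [← hK]; exact (hval 2 (by norm_num) 1 (by norm_num)).trans (by simp [gadget])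
  have hrcol : ∀ j < 5, 2 ≤ j → entry m (rowLab m (R 2)) (colLab m (C j)) = true := by
    intro j hj h2
    refine (hval 2 (by norm_num) j hj).trans ?_
    unfold gadget
    simp
  have hrform : (g = 1 ∧ rowLab m (R 2) = .root) ∨
      ∃ J a h κ', rowLab m (R 2) = .dyn J a h κ' ∧ h ≤ m ∧ (h + 1 = g ∨ h = g) := by
    rcases hl : rowLab m (R 2) with i | ⟨g', c', σ'⟩ | _ | ⟨g', c'⟩ | _ | _ | _ | ⟨J, a, h', κ'⟩
    all_goals simp [hl, RowLab.band, gadgetRowBand, entry] at hr hre hrK
    · exact Or.inl ⟨hre, rfl⟩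
    · have h := rowLab_ok m (R 2)
      rw [hl] at h
      exact Or.inr ⟨J, a, h', κ', rfl, h.2.2.1, hre.imp id (fun h => h.1)⟩
  by_cases hG : g = m + 1
  · rcases hrform with ⟨h1, _⟩ | ⟨J, a, h, κ', hl, hle, hh⟩
    · omega
    have hhm : h = m := by omega
    subst hhm
    have hv := hrcol 3 (by norm_num) (by norm_num)
    rw [hl, hz] at hv
    simp only [entry, decide_eq_true_eq, pre_self] at hv
    subst hv
    exact ⟨J, a, _, κ', az, gz, σz, hl, hz⟩
  exfalso
  have hgm : g ≤ m := by omega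
  have hg1 := hcodeOk.1
  -- the row `x` is dynamic, with a leaf pinned at depth `g - 1`
  obtain ⟨Jx, ax, hx', κx, hlx⟩ : ∃ J a h κ', rowLab m (R 4) = .dyn J a h κ' := by
    rcases hl : rowLab m (R 4) with i | ⟨g', c', σ'⟩ | _ | ⟨g', c'⟩ | _ | _ | _ | ⟨J, a, h', κ'⟩
    all_goals simp [hl, RowLab.band, gadgetRowBand, entry] at hx hxe hxK hxz
    · omega
    · exact ⟨J, a, h', κ', rfl⟩
  rw [hlx] at hxe hxz
  simp only [entry, decide_eq_true_eq, decide_eq_false_iff_not] at hxe hxz
  have hJx : Jx < 2 ^ m := by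
    have h := rowLab_ok m (R 4)
    rw [hlx] at h
    exact h.1
  have hpin : pre m (g - 1) Jx = pre m (g - 1) Jz := by
    have hP : ∀ i, i < 6 → (i = 3 ∨ i = 5) →
        g = 1 ∨ ∃ J a h κ', rowLab m (R i) = .dyn J a h κ' ∧
          pre m (g - 1) J = pre m (g - 1) Jz := by
      intro i hi h35
      have hb : (rowLab m (R i)).band = 2 := by
        rw [(hRb i hi).1]; rcases h35 with rfl | rfl <;> simp [gadgetRowBand]
      refine pin_row (κ := κ) (az := az) (gz := gz) (σz := σz) (c := c) (rowLab_ok m _) hg1 hgm hb ?_ ?_ ?_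
      · rw [← he]; exact (hval i hi 0 (by norm_num)).trans (by rcases h35 with rfl | rfl <;> simp [gadget])
      · rw [← hK]; exact (hval i hi 1 (by norm_num)).trans (by rcases h35 with rfl | rfl <;> simp [gadget])
      · rw [← hz]; exact (hval i hi 3 (by norm_num)).trans (by rcases h35 with rfl | rfl <;> simp [gadget])
    rcases hP 3 (by norm_num) (Or.inl rfl) with h1 | ⟨J₁, a₁, h₁, κ₁, e₁, q₁⟩
    · subst h1; simp only [Nat.sub_self, pre_zero hJx, pre_zero hJz]
    rcases hP 5 (by norm_num) (Or.inr rfl) with h1 | ⟨J₂, a₂, h₂, κ₂, e₂, q₂⟩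
    · subst h1; simp only [Nat.sub_self, pre_zero hJx, pre_zero hJz]
    obtain ⟨J, a, h, κ', e, l₁, l₂⟩ := row_between hR.1 hR.2 e₁ e₂
    rw [hlx] at e
    injection e with e'
    subst e'
    exact (pre_between l₁ l₂ (q₁.trans q₂.symm)).trans q₂
  rcases hxe with h | ⟨h, hd⟩
  · refine hxz ?_
    have : hx' = g - 1 := by omega
    rw [this]; exact hpin
  subst h
  refine hxz ?_
  rw [pre_succ hg1 hgm, pre_succ hg1 hgm, hpin, hd]
  congr 1
  -- the digit of `z`
  have hq := hRb 1 (by norm_num)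
  have hqe : entry m (rowLab m (R 1)) (.code hx' c) = true := by
    rw [← he]; exact (hval 1 (by norm_num) 0 (by norm_num)).trans (by simp [gadget])
  have hqv : ∀ j < 5, entry m (rowLab m (R 1)) (colLab m (C j)) = true := fun j hj =>
    (hval 1 (by norm_num) j hj).trans (by simp [gadget])
  rcases hlq : rowLab m (R 1) with i | ⟨g', c', σ'⟩ | _ | ⟨g', c'⟩ | _ | _ | _ | ⟨J, a, h', κ'⟩
  all_goals simp [hlq, RowLab.band, gadgetRowBand] at hq
  case codeCols =>
    have h3 := hqv 3 (by norm_num)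
    rw [hlq, hz] at h3
    rw [hlq] at hqe
    simp only [entry, decide_eq_true_eq] at h3 hqe
    obtain ⟨e1, e2⟩ := hqe
    obtain ⟨e3, e4⟩ := h3
    rw [← e2, ← e4, e3, e1]
  case allCols =>
    have hV : ∀ j < 5, (j = 2 ∨ j = 4) → ∃ J a τ, colLab m (C j) = .dyn J a hx' τ ∧
        dig m hx' J = c ∧ pre m (hx' - 1) J = pre m (hx' - 1) Jz := by
      intro j hj h24
      have hb : (colLab m (C j)).band = 2 := by
        rw [(hCb j hj).1]; rcases h24 with rfl | rfl <;> simp [gadgetColBand]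
      have hfv : entry m (rowLab m (R 0)) (colLab m (C j)) = true :=
        (hval 0 (by norm_num) j hj).trans (by rcases h24 with rfl | rfl <;> simp [gadget])
      have hqj := hqv j hj
      have hrj := hrcol j hj (by omega)
      rw [hlq] at hqj
      rw [hf] at hfv
      rcases hl : colLab m (C j) with t | ⟨g', c'⟩ | κ' | ⟨g', c'⟩ | ⟨J, a, g', τ⟩
      all_goals simp [hl, ColLab.band, entry] at hb hfv hqj hrj
      obtain ⟨hg', hd', _⟩ := hfv
      subst hg'
      refine ⟨J, a, τ, rfl, hd', ?_⟩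
      have hJ : J < 2 ^ m := by
        have h := colLab_ok m (C j)
        rw [hl] at h
        exact h.1
      rcases hrform with ⟨h1, _⟩ | ⟨J', a', h', κ', hl', _, hh⟩
      · subst h1; simp only [Nat.sub_self, pre_zero hJ, pre_zero hJz]
      · have h3 := hrcol 3 (by norm_num) (by norm_num)
        rw [hl', hz] at h3
        rw [hl'] at hrj
        simp only [entry, decide_eq_true_eq] at h3 hrj
        exact pre_eq_of_le (show g' - 1 ≤ h' by omega) (hrj.symm.trans h3)
    obtain ⟨J₁, a₁, τ₁, e₁, d₁, q₁⟩ := hV 2 (by norm_num) (Or.inl rfl)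
    obtain ⟨J₂, a₂, τ₂, e₂, d₂, q₂⟩ := hV 4 (by norm_num) (Or.inr rfl)
    obtain ⟨J, a, g', τ, e, l₁, l₂⟩ := col_between hC.1 hC.2 e₁ e₂
    rw [hz] at e
    injection e with e'
    subst e'
    have hp : pre m hx' J₁ = pre m hx' J₂ := by
      rw [pre_succ hg1 hgm, pre_succ hg1 hgm, d₁, d₂, q₁, q₂]
    have h := pre_between l₁ l₂ hp
    rw [pre_succ hg1 hgm, pre_succ (J := J₂) hg1 hgm, q₂, d₂] at h
    omega

end Vale.Agent.P037CE
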