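import Mathlib
import Vale.Agent.P037CE.Tags
import Vale.Agent.P037CE.Core
import Vale.Agent.P037CE.Sound

/-! Every ordered copy of the pattern puts a dynamic row and a dynamic column in one leaf. -/

namespace Vale.Agent.P037CE

open Finset

variable {m : ℕ}

/-- A copy of the pattern, in terms of labels. -/
def IsCopyLab (m : ℕ) (r c : Fin kH → Fin (side m)) : Prop :=
  StrictMono r ∧ StrictMono c ∧ ∀ i j, entry m (rowLab m (r i).val) (colLab m (c j).val) = patH i j

lemma patH_tag_tag {i j : Fin kH} (hi : i.val < nTag) (hj : j.val ≤ nTag) :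
    patH i j = tagVal i.val j.val := by
  simp [patH, hi, Nat.lt_succ_of_le hj]

lemma patH_tag_core {i j : Fin kH} (hi : i.val < nTag) (hj : nTag < j.val) :
    patH i j = colSig (gadgetColBand (j.val - (nTag + 1))) i.val := by
  simp [patH, hi, show ¬ j.val < nTag + 1 by omega]

lemma patH_core_tag {i j : Fin kH} (hi : nTag ≤ i.val) (hj : j.val ≤ nTag) :
    patH i j = rowSig (gadgetRowBand (i.val - nTag)) j.val := by
  simp [patH, show ¬ i.val < nTag by omega, Nat.lt_succ_of_le hj]

lemma patH_core_core {i j : Fin kH} (hi : nTag ≤ i.val) (hj : nTag < j.val) :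
    patH i j = gadget (i.val - nTag) (j.val - (nTag + 1)) := by
  simp [patH, show ¬ i.val < nTag by omega, show ¬ j.val < nTag + 1 by omega]

lemma band_row_le (l : RowLab) : l.band ≤ 2 := by cases l <;> simp [RowLab.band]

lemma band_col_le (l : ColLab) : l.band ≤ 2 := by cases l <;> simp [ColLab.band]

lemma rowSig_one {b j : ℕ} (h : rowSig b j = true) : j = b := by
  simp [rowSig] at h; omega

/-- Every copy has a dynamic row and a dynamic column in the same leaf. -/
theorem copy_sound (hm : 1 ≤ m) (r c : Fin kH → Fin (side m))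
    (hc : IsCopyLab m r c) :
    ∃ (i j : Fin kH), i.val = nTag + 2 ∧ j.val = nTag + 4 ∧
      ∃ J a h κ b g σ, rowLab m (r i).val = .dyn J a h κ ∧ colLab m (c j).val = .dyn J b g σ := by
  classical
  obtain ⟨hr, hcm, hA⟩ := hc
  have hn := nTag_gt_bits
  let R : ℕ → RowLab := fun i => rowLab m (if h : i < kH then (r ⟨i, h⟩).val else 0)
  let C : ℕ → ColLab := fun j => colLab m (if h : j < kH then (c ⟨j, h⟩).val else 0)
  have hRC : ∀ i j : Fin kH, entry m (R i.val) (C j.val) = patH i j := fun i j => by
    simp only [R, C, dif_pos i.isLt, dif_pos j.isLt]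
    exact hA i j
  have hk : kH = nTag + 6 := rfl
  -- distinct tag rows (columns) land in distinct tag classes
  have hrow_inj : ∀ i < nTag, ∀ i' < nTag, R i = R i' → i = i' := by
    intro i hi i' hi' he
    refine tag_rows_ext hi hi' fun j hj => ?_
    have h1 := hRC ⟨i, by omega⟩ ⟨j, by omega⟩
    have h2 := hRC ⟨i', by omega⟩ ⟨j, by omega⟩
    rw [patH_tag_tag hi hj] at h1
    rw [patH_tag_tag hi' hj] at h2
    simp only at h1 h2
    rw [← h1, ← h2, he]
  have hcol_inj : ∀ j ≤ nTag, ∀ j' ≤ nTag, C j = C j' → j = j' := by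
    intro j hj j' hj' he
    refine tag_cols_ext hj hj' fun i hi => ?_
    have h1 := hRC ⟨i, by omega⟩ ⟨j, by omega⟩
    have h2 := hRC ⟨i, by omega⟩ ⟨j', by omega⟩
    rw [patH_tag_tag hi hj] at h1
    rw [patH_tag_tag hi hj'] at h2
    simp only at h1 h2
    rw [← h1, ← h2, he]
  have hRmono : ∀ i i', i ≤ i' → i' < kH → (∀ t, R i ≠ .tag t) → ∀ t, R i' ≠ .tag t := by
    intro i i' hle hi' h
    simp only [R, dif_pos hi', dif_pos (lt_of_le_of_lt hle hi')] at h ⊢
    exact rowLab_core_mono (Fin.le_def.1 (hr.monotone (show (⟨i, lt_of_le_of_lt hle hi'⟩ : Fin kH) ≤ ⟨i', hi'⟩ from hle))) h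
  have hCmono : ∀ j j', j ≤ j' → j' < kH → (∀ t, C j ≠ .tag t) → ∀ t, C j' ≠ .tag t := by
    intro j j' hle hj' h
    simp only [C, dif_pos hj', dif_pos (lt_of_le_of_lt hle hj')] at h ⊢
    exact colLab_core_mono (Fin.le_def.1 (hcm.monotone (show (⟨j, lt_of_le_of_lt hle hj'⟩ : Fin kH) ≤ ⟨j', hj'⟩ from hle))) h
  have hRok : ∀ i t, R i = .tag t → t < nTag := fun i t h => (rowLab_eq_tag.1 h).2
  have hCok : ∀ j t, C j = .tag t → t ≤ nTag := fun j t h => (colLab_eq_tag.1 h).2
  by_cases hcase : ∀ i < nTag, ∃ t, R i = .tag t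
  swap
  · -- impossible: some tag row lands in the core
    exfalso
    push Not at hcase
    obtain ⟨i0, hi0, hi0'⟩ := hcase
    have hlast := hRmono i0 (nTag - 1) (by omega) (by omega) hi0'
    -- at most one tag column lands in a tag class
    have hone : ∀ j ≤ nTag, ∀ t, C j = .tag t → t = (R (nTag - 1)).band := by
      intro j hj t ht
      have h1 := hRC ⟨nTag - 1, by omega⟩ ⟨j, by omega⟩
      rw [patH_tag_tag (show nTag - 1 < nTag by omega) hj] at h1
      simp only at h1
      rw [ht, entry_core_tag hlast, tagVal_last hj] at h1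
      exact rowSig_one h1
    obtain ⟨j0, hj0⟩ : ∃ j0, ∀ j ≤ nTag, j ≠ j0 → ∀ t, C j ≠ .tag t := by
      by_cases h : ∃ j ≤ nTag, ∃ t, C j = .tag t
      · obtain ⟨j0, hj0, t0, ht0⟩ := h
        refine ⟨j0, fun j hj hne t ht => hne (hcol_inj j hj j0 hj0 ?_)⟩
        rw [ht, ht0, hone j hj t ht, hone j0 hj0 t0 ht0]
      · push Not at h
        exact ⟨0, fun j hj _ => h j hj⟩
    -- tag rows landing in tag classes at least two have (almost) zero bits
    set R0 := (Finset.range nTag).filter fun i => ∃ t, R i = .tag t with hR0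
    have hbits : ∀ i ∈ R0, (R i = .tag 0 ∨ R i = .tag 1) ∨
        ∀ b < nBits, b + 1 ≠ j0 → i.testBit b = false := by
      intro i hi
      obtain ⟨hin, t, ht⟩ := Finset.mem_filter.1 hi
      rw [Finset.mem_range] at hin
      by_cases h : t ≤ 1
      · refine Or.inl ?_
        interval_cases t <;> simp [ht]
      refine Or.inr fun b hb hne => ?_
      have h1 := hRC ⟨i, by omega⟩ ⟨b + 1, by omega⟩
      rw [patH_tag_tag hin (show b + 1 ≤ nTag by omega)] at h1
      simp only at h1
      rw [ht, entry_tag_core (hj0 (b + 1) (by omega) hne)] at h1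
      simp [tagVal, show b + 1 ≤ nBits from hb, colSig] at h1
      cases hval : i.testBit b
      · rfl
      · rw [hval] at h1
        simp at h1
        omega
    have hR0card : R0.card ≤ 4 := by
      set low := R0.filter fun i => R i = .tag 0 ∨ R i = .tag 1 with hlow
      have h1 : low.card ≤ 2 := by
        have h := Finset.card_le_card_of_injOn (s := low) (t := ({.tag 0, .tag 1} : Finset RowLab)) R
          (fun i hi => by
            rcases (Finset.mem_filter.1 hi).2 with he | he <;> simp [he])
          (fun i hi i' hi' he => hrow_inj i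
            (Finset.mem_range.1 (Finset.mem_filter.1 (Finset.mem_filter.1 hi).1).1) i'
            (Finset.mem_range.1 (Finset.mem_filter.1 (Finset.mem_filter.1 hi').1).1) he)
        exact h.trans Finset.card_le_two
      have h2 : (R0 \ low).card ≤ 2 := by
        have h := Finset.card_le_card_of_injOn (s := R0 \ low) (t := (Finset.univ : Finset Bool))
          (fun i => i.testBit (j0 - 1)) (fun i _ => Finset.mem_univ _) ?_
        · exact h.trans (by simp)
        intro i hi i' hi' he
        obtain ⟨hiR, hil⟩ := Finset.mem_sdiff.1 hi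
        obtain ⟨hiR', hil'⟩ := Finset.mem_sdiff.1 hi'
        have a1 := (hbits i hiR).resolve_left fun h => hil (Finset.mem_filter.2 ⟨hiR, h⟩)
        have a2 := (hbits i' hiR').resolve_left fun h => hil' (Finset.mem_filter.2 ⟨hiR', h⟩)
        have l1 := Finset.mem_range.1 (Finset.mem_filter.1 hiR).1
        have l2 := Finset.mem_range.1 (Finset.mem_filter.1 hiR').1
        refine Nat.eq_of_testBit_eq fun b => ?_
        by_cases hb : b < nBits
        · by_cases hne : b + 1 = j0
          · subst hne; simpa using he
          · rw [a1 b hb hne, a2 b hb hne]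
        · have hle : 2 ^ nBits ≤ 2 ^ b := Nat.pow_le_pow_right (by norm_num) (not_lt.1 hb)
          rw [Nat.testBit_lt_two_pow (lt_of_lt_of_le l1 hle),
            Nat.testBit_lt_two_pow (lt_of_lt_of_le l2 hle)]
      have h3 : (R0 \ low).card + low.card = R0.card :=
        Finset.card_sdiff_add_card_eq_card (Finset.filter_subset _ _)
      omega
    -- twelve bit columns in the core
    obtain ⟨bs, hbs, hbc⟩ := Finset.exists_subset_card_eq
      (s := (Finset.range nBits).filter fun b => b + 1 ≠ j0) (n := 12) (by
        have h := Finset.card_le_card (show Finset.range nBits ⊆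
          ((Finset.range nBits).filter fun b => b + 1 ≠ j0) ∪ {j0 - 1} from fun b hb => by
            by_cases h : b + 1 = j0
            · exact Finset.mem_union_right _ (by simp [← h])
            · exact Finset.mem_union_left _ (Finset.mem_filter.2 ⟨hb, h⟩))
        have h' := h.trans (Finset.card_union_le _ _)
        simp only [Finset.card_range, Finset.card_singleton, nBits_eq] at h' ⊢
        omega)
    let o := bs.orderEmbOfFin hbc
    have ho : ∀ x, o x < nBits ∧ o x + 1 ≠ j0 := fun x => by
      simpa using hbs (bs.orderEmbOfFin_mem hbc x)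
    have hok : ∀ x, o x + 1 < kH := fun x => by have := (ho x).1; omega
    refine no_shatter (m := m) (fun x => (c ⟨o x + 1, hok x⟩).val) ?_ ?_ ?_
    · intro x y hxy
      exact Fin.le_def.1 (hcm.monotone (Nat.succ_le_succ (o.monotone hxy)))
    · intro x
      have := hj0 (o x + 1) (by have := (ho x).1; omega) (ho x).2
      simpa only [C, dif_pos (hok x)] using this
    intro f
    set free := (Finset.range nBits) \ bs with hfree
    have hfree3 : free.card = 3 := by
      rw [hfree, Finset.card_sdiff_of_subset (hbs.trans (Finset.filter_subset _ _)),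
        Finset.card_range, hbc, nBits_eq]
    let E : Finset ℕ := (Finset.range nTag).filter fun i => ∀ x, i.testBit (o x) = f x
    have hE : 8 ≤ E.card := by
      let mk : Finset ℕ → ℕ := fun S => Nat.ofBits fun b : Fin nBits =>
        decide (b.val ∈ S ∨ ∃ x, o x = b.val ∧ f x = true)
      have h := Finset.card_le_card_of_injOn (s := free.powerset) (t := E) mk ?_ ?_
      · simpa [hfree3] using h
      · intro S hS
        rw [Finset.mem_coe, Finset.mem_powerset] at hS
        refine Finset.mem_filter.2 ⟨Finset.mem_range.2 (Nat.ofBits_lt_two_pow _), fun x => ?_⟩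
        rw [Nat.testBit_ofBits, dif_pos (ho x).1]
        have hns : o x ∉ S := fun h => (Finset.mem_sdiff.1 (hS h)).2 (bs.orderEmbOfFin_mem hbc x)
        cases hf : f x
        · simp [hns, hf]
        · simp [hns, hf]
      · intro S hS S' hS' he
        rw [Finset.mem_coe, Finset.mem_powerset] at hS hS'
        have key : ∀ T ⊆ free, ∀ b, (b ∈ T ↔ b ∈ free ∧ (mk T).testBit b = true) := by
          intro T hT b
          constructor
          · intro hb
            refine ⟨hT hb, ?_⟩
            have hbn := Finset.mem_range.1 (Finset.mem_sdiff.1 (hT hb)).1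
            simp [mk, Nat.testBit_ofBits, hbn, hb]
          · rintro ⟨hb, hbit⟩
            obtain ⟨hbn, hnb⟩ := Finset.mem_sdiff.1 hb
            simp [mk, Nat.testBit_ofBits, Finset.mem_range.1 hbn] at hbit
            rcases hbit with h | ⟨x, hx, _⟩
            · exact h
            · exact absurd (hx ▸ bs.orderEmbOfFin_mem hbc x) hnb
        ext b
        rw [key S hS b, key S' hS' b, he]
    obtain ⟨i, hiE, hiR⟩ : ∃ i ∈ E, i ∉ R0 := by
      by_contra h
      push Not at h
      have := Finset.card_le_card h
      omega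
    obtain ⟨hin, hif⟩ := Finset.mem_filter.1 hiE
    rw [Finset.mem_range] at hin
    have hcore : ∀ t, R i ≠ .tag t := fun t ht =>
      hiR (Finset.mem_filter.2 ⟨Finset.mem_range.2 hin, t, ht⟩)
    refine ⟨R i, ?_, fun x => ?_⟩
    · cases hl : R i with
      | tag t => exact absurd hl (hcore t)
      | reader => trivial
      | allCols => trivial
      | codeCols => trivial
      | root => trivial
      | side => trivial
      | centre => trivial
      | dyn => trivial
    · have h1 := hRC ⟨i, by omega⟩ ⟨o x + 1, hok x⟩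
      rw [patH_tag_tag hin (show o x + 1 ≤ nTag by have := (ho x).1; omega)] at h1
      simp only [C, dif_pos (hok x)] at h1
      rw [h1, ← hif x]
      simp [tagVal, show o x + 1 ≤ nBits from (ho x).1]
  · -- all tag rows land in tag classes, hence in their own
    choose! ψ hψ using hcase
    have hψlt : ∀ i < nTag, ψ i < nTag := fun i hi => hRok i _ (hψ i hi)
    have hψmono : StrictMono (fun i : Fin nTag => (⟨ψ i.val, hψlt i.val i.isLt⟩ : Fin nTag)) := by
      intro i i' hlt
      have hle : ψ i.val ≤ ψ i'.val := by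
        have a1 := hψ i.val i.isLt
        have a2 := hψ i'.val i'.isLt
        simp only [R, dif_pos (show i.val < kH by omega), dif_pos (show i'.val < kH by omega)] at a1 a2
        rw [← (rowLab_eq_tag.1 a1).1, ← (rowLab_eq_tag.1 a2).1]
        exact Nat.div_le_div_right (Fin.le_def.1 (hr.monotone (show (⟨i.val, by omega⟩ : Fin kH) ≤ ⟨i'.val, by omega⟩ from le_of_lt (α := ℕ) hlt)))
      rcases lt_or_eq_of_le hle with h | h
      · exact h
      · have := hrow_inj i.val i.isLt i'.val i'.isLt
          (by rw [hψ i.val i.isLt, hψ i'.val i'.isLt, h])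
        exact absurd this (ne_of_lt hlt)
    have hψid : ∀ i < nTag, R i = .tag i := by
      intro i hi
      have h1 : ψ i = i := by
        have h := congrFun hψmono.eq_id ⟨i, hi⟩
        simpa [Fin.ext_iff] using h
      rw [hψ i hi, h1]
    have hcolid : ∀ j ≤ nTag, C j = .tag j := by
      intro j hj
      by_cases h : ∃ t, C j = .tag t
      · obtain ⟨t, ht⟩ := h
        rw [ht]
        congr 1
        refine (tag_cols_ext (hCok j t ht) hj fun i hi => ?_)
        have h1 := hRC ⟨i, by omega⟩ ⟨j, by omega⟩
        rw [patH_tag_tag hi hj] at h1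
        simp only at h1
        rw [hψid i hi, ht] at h1
        exact h1
      · push Not at h
        exfalso
        have h1 := hRC ⟨nTag - 1, by omega⟩ ⟨j, by omega⟩
        rw [patH_tag_tag (show nTag - 1 < nTag by omega) hj] at h1
        simp only at h1
        rw [hψid _ (by omega), entry_tag_core h, tagVal_last hj] at h1
        simp [colSig, nBits_eq] at h1 hn
        omega
    have hrowcore : ∀ i < 6, (R (nTag + i)).band = gadgetRowBand i ∧ ∀ t, R (nTag + i) ≠ .tag t := by
      intro i hi
      have hnt : ∀ t, R (nTag + i) ≠ .tag t := by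
        intro t ht
        have h1 := hRC ⟨nTag + i, by omega⟩ ⟨0, by omega⟩
        rw [patH_core_tag (Nat.le_add_right nTag i) (Nat.zero_le _)] at h1
        simp only [hcolid 0 (Nat.zero_le _), ht] at h1
        simp [entry, tagVal, rowSig] at h1
      refine ⟨?_, hnt⟩
      have e : ∀ j ≤ nTag, rowSig (R (nTag + i)).band j = rowSig (gadgetRowBand i) j := by
        intro j hj
        have h1 := hRC ⟨nTag + i, by omega⟩ ⟨j, by omega⟩
        rw [patH_core_tag (Nat.le_add_right nTag i) hj] at h1
        simp only [hcolid j hj, entry_core_tag hnt, Nat.add_sub_cancel_left] at h1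
        exact h1
      have e1 := e 1 (by omega)
      have e2 := e 2 (by omega)
      have b1 := band_row_le (R (nTag + i))
      have b2 : gadgetRowBand i ≤ 2 := by unfold gadgetRowBand; split_ifs <;> omega
      simp [rowSig] at e1 e2
      omega
    have hcolcore : ∀ j < 5, (C (nTag + 1 + j)).band = gadgetColBand j ∧
        ∀ t, C (nTag + 1 + j) ≠ .tag t := by
      intro j hj
      have hnt : ∀ t, C (nTag + 1 + j) ≠ .tag t := by
        intro t ht
        have h1 := hRC ⟨nTag - 1, by omega⟩ ⟨nTag + 1 + j, by omega⟩
        rw [patH_tag_core (show nTag - 1 < nTag by omega) (show nTag < nTag + 1 + j by omega)] at h1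
        simp only at h1
        rw [ht, hψid _ (by omega)] at h1
        simp only [entry, tagVal_last (hCok _ t ht)] at h1
        simp [colSig, nBits_eq] at h1 hn
        omega
      refine ⟨?_, hnt⟩
      have e : ∀ i < nTag, colSig (C (nTag + 1 + j)).band i = colSig (gadgetColBand j) i := by
        intro i hi
        have h1 := hRC ⟨i, by omega⟩ ⟨nTag + 1 + j, by omega⟩
        rw [patH_tag_core hi (show nTag < nTag + 1 + j by omega)] at h1
        simp only [hψid i hi, entry_tag_core hnt, Nat.add_sub_cancel_left] at h1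
        exact h1
      have e1 := e 0 (by omega)
      have e2 := e 1 (by omega)
      have b1 := band_col_le (C (nTag + 1 + j))
      have b2 : gadgetColBand j ≤ 2 := by unfold gadgetColBand; split_ifs <;> omega
      simp [colSig] at e1 e2
      omega
    let P : ℕ → ℕ := fun i => if h : nTag + i < kH then (r ⟨nTag + i, h⟩).val else 0
    let Q : ℕ → ℕ := fun j => if h : nTag + 1 + j < kH then (c ⟨nTag + 1 + j, h⟩).val else 0
    have hP : ∀ i < 6, rowLab m (P i) = R (nTag + i) := fun i hi => by
      simp [P, R, show nTag + i < kH by omega]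
    have hQ : ∀ j < 5, colLab m (Q j) = C (nTag + 1 + j) := fun j hj => by
      simp [Q, C, show nTag + 1 + j < kH by omega]
    have hPm : ∀ i i', i ≤ i' → i' < 6 → P i ≤ P i' := fun i i' hle hi' => by
      simp only [P, dif_pos (show nTag + i < kH by omega), dif_pos (show nTag + i' < kH by omega)]
      exact Fin.le_def.1 (hr.monotone (show (⟨nTag + i, _⟩ : Fin kH) ≤ ⟨nTag + i', _⟩ from Nat.add_le_add_left hle _))
    have hQm : ∀ j j', j ≤ j' → j' < 5 → Q j ≤ Q j' := fun j j' hle hj' => by
      simp only [Q, dif_pos (show nTag + 1 + j < kH by omega), dif_pos (show nTag + 1 + j' < kH by omega)]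
      exact Fin.le_def.1 (hcm.monotone (show (⟨nTag + 1 + j, _⟩ : Fin kH) ≤ ⟨nTag + 1 + j', _⟩ from Nat.add_le_add_left hle _))
    obtain ⟨J, a, h, κ, b, g, σ, e1, e2⟩ := gadget_sound hm P Q
      ⟨hPm 3 4 (by norm_num) (by norm_num), hPm 4 5 (by norm_num) (by norm_num)⟩
      ⟨hQm 2 3 (by norm_num) (by norm_num), hQm 3 4 (by norm_num) (by norm_num)⟩
      (fun i hi => by rw [hP i hi]; exact hrowcore i hi)
      (fun j hj => by rw [hQ j hj]; exact hcolcore j hj)
      (fun i hi j hj => by
        rw [hP i hi, hQ j hj, hRC ⟨nTag + i, by omega⟩ ⟨nTag + 1 + j, by omega⟩,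
          patH_core_core (Nat.le_add_right nTag i) (show nTag < nTag + 1 + j by omega)]
        simp only [Nat.add_sub_cancel_left])
    refine ⟨⟨nTag + 2, by omega⟩, ⟨nTag + 4, by omega⟩, rfl, rfl, J, a, h, κ, b, g, σ, ?_, ?_⟩
    · simpa [P, show nTag + 2 < kH by omega] using e1
    · simpa [Q, show nTag + 1 + 3 < kH by omega] using e2

end Vale.Agent.P037CE
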