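import Mathlib
import Vale.Agent.P037CE.Rigid

/-! The matrices have at most `2 ^ (-m) * n ^ (2 * k)` copies of the pattern. -/

namespace Vale.Agent.P037CE

open Finset Vale.Agent.P037

lemma colL_pos (m : ℕ) : 0 < colL m := by unfold colL nSlot nCode; positivity

lemma colL_le_nBlock (m : ℕ) : colL m ≤ nBlock m := by unfold nBlock; omega

theorem copies_le (m : ℕ) (hm : 1 ≤ m) :
    numCopies patH (matA m) * 2 ^ m ≤ side m ^ (2 * kH) := by
  classical
  have hk : kH = nTag + 5 + 1 := rfl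
  set n := side m with hn
  let iz : Fin kH := ⟨nTag + 4, by omega⟩
  let S := {p : (Fin kH → Fin n) × (Fin kH → Fin n) // IsCopy patH (matA m) p.1 p.2}
  let f : S → (Fin kH → Fin n) × ({j : Fin kH // j ≠ iz} → Fin n) × Fin (colL m) := fun p =>
    (p.1.1, fun j => p.1.2 j.1,
      ⟨((p.1.2 iz).val - colD m * 2 ^ m) % colL m, Nat.mod_lt _ (colL_pos m)⟩)
  have hf : Function.Injective f := by
    rintro ⟨⟨r, c⟩, hp⟩ ⟨⟨r', c'⟩, hp'⟩ he
    simp only [f, Prod.mk.injEq, Fin.mk.injEq] at he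
    obtain ⟨hr, hc, hrank⟩ := he
    subst hr
    have key : ∀ c : Fin kH → Fin n, IsCopy patH (matA m) r c →
        colD m * 2 ^ m ≤ (c iz).val ∧
          ((c iz).val - colD m * 2 ^ m) / colL m =
            ((r ⟨nTag + 2, by omega⟩).val - rowD m * 2 ^ m) / rowL m := by
      intro c hcp
      obtain ⟨i, j, hi, hj, J, a, h, κ, b, g, σ, e1, e2⟩ := copy_sound hm r c hcp
      obtain ⟨_, _, q1⟩ := rowLab_dyn_iff e1
      obtain ⟨q2, _, q3⟩ := colLab_dyn_iff e2
      have ei : i = ⟨nTag + 2, by omega⟩ := Fin.ext hi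
      have ej : j = iz := Fin.ext hj
      rw [ej] at q2 q3
      rw [ei] at q1
      exact ⟨q2, q3.symm.trans q1⟩
    obtain ⟨a1, a2⟩ := key c hp
    obtain ⟨b1, b2⟩ := key c' hp'
    have hiz : c iz = c' iz := by
      apply Fin.ext
      have h1 := Nat.div_add_mod ((c iz).val - colD m * 2 ^ m) (colL m)
      have h2 := Nat.div_add_mod ((c' iz).val - colD m * 2 ^ m) (colL m)
      rw [a2, hrank] at h1
      rw [b2] at h2
      omega
    have : c = c' := by
      funext j
      by_cases hj : j = iz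
      · subst hj; exact hiz
      · exact congrFun hc ⟨j, hj⟩
    subst this
    rfl
  have hcard := Nat.card_le_card_of_injective f hf
  have hsub : Nat.card {j : Fin kH // j ≠ iz} = kH - 1 := by
    rw [Nat.card_eq_fintype_card, Fintype.card_subtype]
    simp [Finset.filter_ne', Finset.card_erase_of_mem]
  rw [Nat.card_prod, Nat.card_prod, Nat.card_fun, Nat.card_fun, Nat.card_fin, Nat.card_fin,
    Nat.card_fin, hsub] at hcard
  calc numCopies patH (matA m) * 2 ^ m
      ≤ n ^ kH * (n ^ (kH - 1) * colL m) * 2 ^ m := Nat.mul_le_mul_right _ hcard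
    _ = n ^ kH * n ^ (kH - 1) * (colL m * 2 ^ m) := by ring
    _ ≤ n ^ kH * n ^ (kH - 1) * n :=
        Nat.mul_le_mul_left _ (Nat.mul_le_mul_right _ (colL_le_nBlock m))
    _ = n ^ (2 * kH) := by
        rw [mul_assoc, ← pow_succ, ← pow_add]
        congr 1

end Vale.Agent.P037CE
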