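import Mathlib
import Vale.Agent.P037CE.Agree

/-!
No matrix free of the pattern is close to the counterexample: from the static crosses of one
sample the gadget propagates ones down the tree, and at the bottom it completes a copy.
-/

namespace Vale.Agent.P037CE

open Finset Vale.Agent.P037

variable {m : ℕ} {B : Fin (side m) → Fin (side m) → Bool} {J i i' : ℕ}

lemma statPos_lt_statPos {b b' : ℕ} (hi : i < 2 ^ m) (h : b < b') :
    statPos m b i < statPos m b' i :=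
  lt_of_lt_of_le (statPos_lt h hi) (Nat.le_add_right _ _)

lemma statPos_lt_dynPos {b D L l : ℕ} (hi : i < 2 ^ m) (h : b < D) :
    statPos m b i < dynPos m D L J l :=
  lt_of_lt_of_le (statPos_lt h hi) (Nat.le_add_right _ _)

lemma dynPos_lt_statPos {b D L l : ℕ} (hJ : J < 2 ^ m) (hl : l < L) (h : D + L ≤ b) :
    dynPos m D L J l < statPos m b i :=
  (dynPos_range hJ hl).2.trans_le ((Nat.mul_le_mul_right _ h).trans (Nat.le_add_right _ _))

lemma dynPos_lt_dynPos {D L l l' : ℕ} (h : l < l') : dynPos m D L J l < dynPos m D L J l' := by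
  unfold dynPos; omega

/-- Position of a dynamic row of the leaf `J`. -/
def rowP (m J a h κ : ℕ) : ℕ := dynPos m (rowD m) (rowL m) J (rowIdx m a h κ)

/-- Position of a dynamic column of the leaf `J`. -/
def colP (m J a g σ : ℕ) : ℕ := dynPos m (colD m) (colL m) J (colIdx m a g σ)

lemma dR (hJ : J < 2 ^ m) {a h κ : ℕ} (ha : a < nSlot m) (h1 : 1 ≤ h) (hm : h ≤ m) (hκ : κ < 2) :
    DR m J (rowP m J a h κ) (.dyn J a h κ) :=
  ⟨⟨_, rowIdx_lt ha h1 hm hκ, rfl⟩, rowLab_dynPos hJ ha h1 hm hκ⟩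

lemma dC (hJ : J < 2 ^ m) {a g σ : ℕ} (ha : a < nSlot m) (h1 : 1 ≤ g) (hm : g ≤ m + 1)
    (hσ : σ < 2) : DC m J (colP m J a g σ) (.dyn J a g σ) :=
  ⟨⟨_, colIdx_lt ha h1 hm hσ, rfl⟩, colLab_dynPos hJ ha h1 hm hσ⟩

lemma sR (hi : i < 2 ^ m) {b : ℕ} {l : RowLab} (hb : b < rowD m ∨ rowD m + rowL m ≤ b)
    (hP : b < nBlock m) (hl : rowStatic m b = l) : SR m i (statPos m b i) l :=
  ⟨⟨b, hP, rfl⟩, by rw [rowLab_statPos hi hb, hl]⟩

lemma sC (hi : i' < 2 ^ m) {b : ℕ} {l : ColLab} (hb : b < colD m ∨ colD m + colL m ≤ b)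
    (hP : b < nBlock m) (hl : colStatic m b = l) : SC m i' (statPos m b i') l :=
  ⟨⟨b, hP, rfl⟩, by rw [colLab_statPos hi hb, hl]⟩

lemma sR_reader (hi : i < 2 ^ m) {g c σ : ℕ} (h1 : 1 ≤ g) (hm : g ≤ m + 1) (hc : c < 2)
    (hσ : σ < 2) : SR m i (statPos m (bReader g c σ) i) (.reader g c σ) :=
  sR hi (Or.inl (by simp only [bReader, rowD, nCode]; omega))
    (by simp only [bReader, nBlock, nCode]; omega) (rowStatic_reader h1 hm hc hσ)

lemma sR_all (hi : i < 2 ^ m) : SR m i (statPos m (bAll m) i) .allCols :=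
  sR hi (Or.inl (by simp only [bAll, rowD, nCode]; omega))
    (by simp only [bAll, nBlock, nCode]; omega) (rowStatic_all m)

lemma sR_codeCols (hi : i < 2 ^ m) {g c : ℕ} (h1 : 1 ≤ g) (hm : g ≤ m + 1) (hc : c < 2) :
    SR m i (statPos m (bCodeCols m g c) i) (.codeCols g c) :=
  sR hi (Or.inl (by simp only [bCodeCols, rowD, nCode]; omega))
    (by simp only [bCodeCols, nBlock, nCode]; omega) (rowStatic_codeCols h1 hm hc)

lemma sR_root (hi : i < 2 ^ m) : SR m i (statPos m (bRoot m) i) .root :=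
  sR hi (Or.inl (by simp only [bRoot, rowD]; omega))
    (by simp only [bRoot, nBlock, nCode]; omega) (rowStatic_root m)

lemma sR_side (hi : i < 2 ^ m) {b : ℕ}
    (hb : b + 1 = rowD m ∨ b = rowD m + rowL m ∨ b = rowD m + rowL m + 2) :
    SR m i (statPos m b i) .side := by
  have h1 := rowD_add_rowL_le m
  exact sR hi (by omega) (by omega)
    (rowStatic_side (by simp only [rowD] at *; omega) (by omega))

lemma sR_centre (hi : i < 2 ^ m) : SR m i (statPos m (rowD m + rowL m + 1) i) .centre :=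
  sR hi (Or.inr (Nat.le_succ _)) (by have := rowD_add_rowL_le m; omega) (rowStatic_centre m)

lemma sC_code (hi : i' < 2 ^ m) {g c : ℕ} (h1 : 1 ≤ g) (hm : g ≤ m + 1) (hc : c < 2) :
    SC m i' (statPos m (bCode g c) i') (.code g c) :=
  sC hi (Or.inl (by simp only [bCode, colD, nCode]; omega))
    (by simp only [bCode, nBlock, nCode]; omega) (colStatic_code h1 hm hc)

lemma sC_kind (hi : i' < 2 ^ m) {κ : ℕ} (hκ : κ < 2) :
    SC m i' (statPos m (bKind m κ) i') (.kind κ) :=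
  sC hi (Or.inl (by simp only [bKind, colD, nCode]; omega))
    (by simp only [bKind, nBlock, nCode]; omega) (colStatic_kind hκ)

lemma sC_omegaL (hi : i' < 2 ^ m) {g c : ℕ} (h1 : 1 ≤ g) (hm : g ≤ m + 1) (hc : c < 2) :
    SC m i' (statPos m (bOmegaL m g c) i') (.omega g c) :=
  sC hi (Or.inl (by simp only [bOmegaL, colD, nCode]; omega))
    (by simp only [bOmegaL, nBlock, nCode]; omega) (colStatic_omegaL h1 hm hc)

lemma sC_omegaR (hi : i' < 2 ^ m) {g c : ℕ} (h1 : 1 ≤ g) (hm : g ≤ m + 1) (hc : c < 2) :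
    SC m i' (statPos m (bOmegaR m g c) i') (.omega g c) :=
  sC hi (Or.inr (by simp only [bOmegaR]; omega))
    (by simp only [bOmegaR, colD, nBlock, nCode]; omega) (colStatic_omegaR h1 hm hc)

/-- The gadget in terms of its eleven positions. -/
lemma no_gadget' (hfree : IsFree patH B) (hag : Agree B J i i') {f q r p x p' e K v z v' : ℕ}
    (hf : RowOk m J i f 0) (hq : RowOk m J i q 1) (hr : RowOk m J i r 2)
    (hp : RowOk m J i p 2) (hx : RowOk m J i x 2) (hp' : RowOk m J i p' 2)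
    (he : ColOk m J i' e 0) (hK : ColOk m J i' K 1) (hv : ColOk m J i' v 2)
    (hz : ColOk m J i' z 2) (hv' : ColOk m J i' v' 2)
    (hf0 : nTag * 2 ^ m ≤ f) (he0 : (nTag + 1) * 2 ^ m ≤ e)
    (l1 : f < q) (l2 : q < r) (l3 : r < p) (l4 : p < x) (l5 : x < p')
    (k1 : e < K) (k2 : K < v) (k3 : v < z) (k4 : z < v')
    (vf : ent B f e = true ∧ ent B f K = true ∧ ent B f v = true ∧ ent B f z = false ∧
      ent B f v' = true)
    (vq : ent B q e = true ∧ ent B q K = true ∧ ent B q v = true ∧ ent B q z = true ∧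
      ent B q v' = true)
    (vr : ent B r e = true ∧ ent B r K = true ∧ ent B r v = true ∧ ent B r z = true ∧
      ent B r v' = true)
    (vp : ent B p e = true ∧ ent B p K = false ∧ ent B p v = true ∧ ent B p z = true ∧
      ent B p v' = true)
    (vx : ent B x e = true ∧ ent B x K = false ∧ ent B x v = true ∧ ent B x z = false ∧
      ent B x v' = true)
    (vp' : ent B p' e = true ∧ ent B p' K = false ∧ ent B p' v = true ∧ ent B p' z = true ∧
      ent B p' v' = true) : False := by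
  refine no_gadget hfree hag ![f, q, r, p, x, p'] ![e, K, v, z, v']
    (six_strictMono l1 l2 l3 l4 l5) (five_strictMono k1 k2 k3 k4) hf0 he0 ?_ ?_ ?_
  · intro a
    fin_cases a <;> simpa [gadgetRowBand]
  · intro b
    fin_cases b <;> simpa [gadgetColBand]
  · intro a b
    fin_cases a <;> fin_cases b <;> simp [gadget, *]

/-- The slot `a` keeps a margin `2 * g` on both sides. -/
def Mid (m g a : ℕ) : Prop := 2 * g ≤ a ∧ a + 2 * g < nSlot m

/-- All dynamic rows of depth `g` see ones on all dynamic columns, up to margins. -/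
def RowsTrue (B : Fin (side m) → Fin (side m) → Bool) (J g : ℕ) : Prop :=
  ∀ a κ b k σ, Mid m g a → κ < 2 → Mid m g b → 1 ≤ k → k ≤ m + 1 → σ < 2 →
    ent B (rowP m J a g κ) (colP m J b k σ) = true

/-- The columns on which the predecessors of depth `g` are known. -/
def KnownCol (m J i' g q : ℕ) : Prop :=
  (∃ g' c', SC m i' q (.omega g' c')) ∨
    ∃ b k σ, q = colP m J b k σ ∧ Mid m (g - 1) b ∧ 1 ≤ k ∧ k ≤ m + 1 ∧ σ < 2

lemma preds (hag : Agree B J i i') {g a κ c : ℕ} (hg1 : 1 ≤ g) (hgm : g ≤ m) (ha : Mid m g a)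
    (hκ : κ < 2) (hc : c < 2) (ih : 2 ≤ g → RowsTrue B J (g - 1)) :
    ∃ r p p', RowOk m J i r 2 ∧ RowOk m J i p 2 ∧ RowOk m J i p' 2 ∧
      statPos m (bRoot m) i ≤ r ∧ r < p ∧ p < rowP m J a g κ ∧ rowP m J a g κ < p' ∧
      ent B r (statPos m (bCode g c) i') = true ∧
      ent B r (statPos m (bKind m (1 - κ)) i') = true ∧
      ent B p (statPos m (bCode g c) i') = true ∧
      ent B p (statPos m (bKind m (1 - κ)) i') = false ∧
      ent B p' (statPos m (bCode g c) i') = true ∧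
      ent B p' (statPos m (bKind m (1 - κ)) i') = false ∧
      ∀ q, KnownCol m J i' g q → ent B r q = true ∧ ent B p q = true ∧ ent B p' q = true := by
  obtain ⟨hJ, hi, hi'⟩ := And.intro hag.hJ (And.intro hag.hi hag.hi')
  have hns : a < nSlot m := by unfold Mid at ha; omega
  have hG : g ≤ m + 1 := by omega
  have hκ' : 1 - κ < 2 := by omega
  have he := sC_code hi' hg1 hG hc
  have hK := sC_kind hi' hκ'
  by_cases h1 : g = 1
  · subst h1
    have hr := sR_root (m := m) hi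
    have hb1 : rowD m - 1 + 1 = rowD m := by unfold rowD; omega
    have hp := sR_side (b := rowD m - 1) hi (Or.inl hb1)
    have hp' := sR_side (b := rowD m + rowL m) hi (Or.inr (Or.inl rfl))
    refine ⟨_, _, _, ⟨_, rfl, Or.inl hr⟩, ⟨_, rfl, Or.inl hp⟩, ⟨_, rfl, Or.inl hp'⟩, le_rfl,
      statPos_lt_statPos hi (by unfold bRoot rowD; omega), statPos_lt_dynPos hi (by omega),
      dynPos_lt_statPos hJ (rowIdx_lt hns hg1 hgm hκ) le_rfl, ?_, ?_, ?_, ?_, ?_, ?_, ?_⟩
    · simp [hag.eSS hr he, entry]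
    · simp [hag.eSS hr hK, entry]
    · simp [hag.eSS hp he, entry]
    · simp [hag.eSS hp hK, entry]
    · simp [hag.eSS hp' he, entry]
    · simp [hag.eSS hp' hK, entry]
    · rintro q (⟨g', c', hq⟩ | ⟨b, k, σ, rfl, hb, hk1, hk2, hσ⟩)
      · simp [hag.eSS hr hq, hag.eSS hp hq, hag.eSS hp' hq, entry]
      · have hq := dC hJ (a := b) (by unfold Mid at hb; omega) hk1 hk2 hσ
        simp [hag.eSD hr hq, hag.eSD hp hq, hag.eSD hp' hq, entry]
  · have hh1 : 1 ≤ g - 1 := by omega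
    have hhm : g - 1 ≤ m := by omega
    have hsucc : g - 1 + 1 = g := by omega
    unfold Mid at ha
    have hr := dR hJ (a := a - 2) (by omega) hh1 hhm hκ'
    have hp := dR hJ (a := a - 1) (by omega) hh1 hhm hκ
    have hp' := dR hJ (a := a + 1) (by omega) hh1 hhm hκ
    refine ⟨_, _, _, ⟨_, rfl, Or.inr hr⟩, ⟨_, rfl, Or.inr hp⟩, ⟨_, rfl, Or.inr hp'⟩,
      (statPos_lt_dynPos hi (by unfold bRoot rowD; omega)).le,
      dynPos_lt_dynPos (rowIdx_slot_lt (by omega) hhm hh1 hκ'),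
      dynPos_lt_dynPos (rowIdx_slot_lt (by omega) hhm hh1 hκ),
      dynPos_lt_dynPos (rowIdx_slot_lt (by omega) hgm hg1 hκ), ?_, ?_, ?_, ?_, ?_, ?_, ?_⟩
    · simp [hag.eDS hr he, entry, hsucc]
    · simp [hag.eDS hr hK, entry]
    · simp [hag.eDS hp he, entry, hsucc]
    · simp [hag.eDS hp hK, entry]; omega
    · simp [hag.eDS hp' he, entry, hsucc]
    · simp [hag.eDS hp' hK, entry]; omega
    · rintro q (⟨g', c', hq⟩ | ⟨b, k, σ, rfl, hb, hk1, hk2, hσ⟩)
      · simp [hag.eDS hr hq, hag.eDS hp hq, hag.eDS hp' hq, entry]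
      · exact ⟨ih (by omega) _ _ b k σ ⟨by omega, by omega⟩ hκ' hb hk1 hk2 hσ,
          ih (by omega) _ _ b k σ ⟨by omega, by omega⟩ hκ hb hk1 hk2 hσ,
          ih (by omega) _ _ b k σ ⟨by omega, by omega⟩ hκ hb hk1 hk2 hσ⟩

lemma step (hfree : IsFree patH B) (hag : Agree B J i i') {g : ℕ} (hg1 : 1 ≤ g) (hgm : g ≤ m)
    (ih : 2 ≤ g → RowsTrue B J (g - 1)) : RowsTrue B J g := by
  intro a κ b k σ ha hκ hb hk1 hk2 hσ
  obtain ⟨hJ, hi, hi'⟩ := And.intro hag.hJ (And.intro hag.hi hag.hi')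
  have hG : g ≤ m + 1 := by omega
  set c := dig m g J with hcdef
  have hc : c < 2 := dig_lt m g J
  obtain ⟨r, p, p', hr, hp, hp', hqr, hrp, hpx, hxp', vre, vrK, vpe, vpK, vp'e, vp'K, hcol⟩ :=
    preds hag hg1 hgm ha hκ hc ih
  have hns : a < nSlot m := by unfold Mid at ha; omega
  have hκ' : 1 - κ < 2 := by omega
  have hx := dR hJ hns hg1 hgm hκ
  have he := sC_code hi' hg1 hG hc
  have hK := sC_kind hi' hκ'
  have he0 : (nTag + 1) * 2 ^ m ≤ statPos m (bCode g c) i' :=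
    (Nat.mul_le_mul_right _ (by unfold bCode; omega)).trans (Nat.le_add_right _ _)
  have heK : statPos m (bCode g c) i' < statPos m (bKind m (1 - κ)) i' :=
    statPos_lt_statPos hi' (by unfold bCode bKind nCode; omega)
  have vxe : ent B (rowP m J a g κ) (statPos m (bCode g c) i') = true := by
    simp [hag.eDS hx he, entry, ← hcdef]
  have vxK : ent B (rowP m J a g κ) (statPos m (bKind m (1 - κ)) i') = false := by
    simp [hag.eDS hx hK, entry]; omega
  -- first the columns of group `g`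
  have hI : ∀ b σ, Mid m (g - 1) b → σ < 2 →
      ent B (rowP m J a g κ) (colP m J b g σ) = true := by
    intro b σ hb hσ
    by_contra hne
    rw [Bool.not_eq_true] at hne
    have hbs : b < nSlot m := by unfold Mid at hb; omega
    have hz := dC hJ hbs hg1 hG hσ
    have hv := sC_omegaL hi' hg1 hG hc
    have hv' := sC_omegaR hi' hg1 hG hc
    have hf := sR_reader hi hg1 hG hc (σ := 1 - σ) (by omega)
    have hq := sR_codeCols hi hg1 hG hc
    obtain ⟨cv1, cv2, cv3⟩ := hcol _ (Or.inl ⟨g, c, hv⟩)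
    obtain ⟨cw1, cw2, cw3⟩ := hcol _ (Or.inl ⟨g, c, hv'⟩)
    obtain ⟨cz1, cz2, cz3⟩ := hcol _ (Or.inr ⟨b, g, σ, rfl, hb, hg1, hG, hσ⟩)
    refine no_gadget' hfree hag ⟨_, rfl, Or.inl hf⟩ ⟨_, rfl, Or.inl hq⟩ hr hp
      ⟨_, rfl, Or.inr hx⟩ hp' ⟨_, rfl, Or.inl he⟩ ⟨_, rfl, Or.inl hK⟩ ⟨_, rfl, Or.inl hv⟩
      ⟨_, rfl, Or.inr hz⟩ ⟨_, rfl, Or.inl hv'⟩
      ((Nat.mul_le_mul_right _ (Nat.le_add_right _ _)).trans (Nat.le_add_right _ _)) he0
      (statPos_lt_statPos hi (by unfold bReader bCodeCols nCode; omega))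
      (lt_of_lt_of_le (statPos_lt_statPos hi (by unfold bCodeCols bRoot nCode; omega)) hqr)
      hrp hpx hxp' heK
      (statPos_lt_statPos hi' (by unfold bKind bOmegaL nCode; omega))
      (statPos_lt_dynPos hi' (by unfold bOmegaL colD nCode; omega))
      (dynPos_lt_statPos hJ (colIdx_lt hbs hg1 hG hσ) (Nat.le_add_right _ _))
      ?_ ?_ ⟨vre, vrK, cv1, cz1, cw1⟩ ⟨vpe, vpK, cv2, cz2, cw2⟩ ?_
      ⟨vp'e, vp'K, cv3, cz3, cw3⟩
    · simp [hag.eSS hf he, hag.eSS hf hK, hag.eSS hf hv, hag.eSS hf hv', hag.eSD hf hz, entry]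
      omega
    · simp [hag.eSS hq he, hag.eSS hq hK, hag.eSS hq hv, hag.eSS hq hv', hag.eSD hq hz, entry,
        ← hcdef]
    · refine ⟨vxe, vxK, ?_, hne, ?_⟩
      · simp [hag.eDS hx hv, entry]
      · simp [hag.eDS hx hv', entry]
  -- then all columns
  by_contra hne
  rw [Bool.not_eq_true] at hne
  unfold Mid at hb
  have hmid : Mid m (g - 1) b := ⟨by omega, by omega⟩
  have hmL : Mid m (g - 1) (b - 1) := ⟨by omega, by omega⟩
  have hmR : Mid m (g - 1) (b + 1) := ⟨by omega, by omega⟩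
  have hσ' : 1 - σ < 2 := by omega
  have hz := dC hJ (show b < nSlot m by omega) hk1 hk2 hσ
  have hv := dC hJ (show b - 1 < nSlot m by omega) hg1 hG hσ'
  have hv' := dC hJ (show b + 1 < nSlot m by omega) hg1 hG hσ'
  have hf := sR_reader hi hg1 hG hc (σ := 1 - σ) hσ'
  have hq := sR_all (m := m) hi
  obtain ⟨cv1, cv2, cv3⟩ := hcol _ (Or.inr ⟨b - 1, g, 1 - σ, rfl, hmL, hg1, hG, hσ'⟩)
  obtain ⟨cw1, cw2, cw3⟩ := hcol _ (Or.inr ⟨b + 1, g, 1 - σ, rfl, hmR, hg1, hG, hσ'⟩)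
  obtain ⟨cz1, cz2, cz3⟩ := hcol _ (Or.inr ⟨b, k, σ, rfl, hmid, hk1, hk2, hσ⟩)
  refine no_gadget' hfree hag ⟨_, rfl, Or.inl hf⟩ ⟨_, rfl, Or.inl hq⟩ hr hp
    ⟨_, rfl, Or.inr hx⟩ hp' ⟨_, rfl, Or.inl he⟩ ⟨_, rfl, Or.inl hK⟩ ⟨_, rfl, Or.inr hv⟩
    ⟨_, rfl, Or.inr hz⟩ ⟨_, rfl, Or.inr hv'⟩
    ((Nat.mul_le_mul_right _ (Nat.le_add_right _ _)).trans (Nat.le_add_right _ _)) he0
    (statPos_lt_statPos hi (by unfold bReader bAll nCode; omega))
    (lt_of_lt_of_le (statPos_lt_statPos hi (by unfold bAll bRoot nCode; omega)) hqr)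
    hrp hpx hxp' heK
    (statPos_lt_dynPos hi' (by unfold bKind colD nCode; omega))
    (dynPos_lt_dynPos (colIdx_slot_lt (by omega) hG hg1 hσ'))
    (dynPos_lt_dynPos (colIdx_slot_lt (by omega) hk2 hk1 hσ))
    ?_ ?_ ⟨vre, vrK, cv1, cz1, cw1⟩ ⟨vpe, vpK, cv2, cz2, cw2⟩
    ⟨vxe, vxK, hI _ _ hmL hσ', hne, hI _ _ hmR hσ'⟩ ⟨vp'e, vp'K, cv3, cz3, cw3⟩
  · simp [hag.eSS hf he, hag.eSS hf hK, hag.eSD hf hv, hag.eSD hf hv', hag.eSD hf hz, entry,
      ← hcdef]
    omega
  · simp [hag.eSS hq he, hag.eSS hq hK, hag.eSD hq hv, hag.eSD hq hv', hag.eSD hq hz, entry]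

/-- A matrix agreeing with the counterexample on one sample is not free of the pattern. -/
theorem not_free (hm : 1 ≤ m) (hfree : IsFree patH B) (hag : Agree B J i i') : False := by
  have hall : ∀ g, 1 ≤ g → g ≤ m → RowsTrue B J g := by
    intro g
    induction g with
    | zero => intro h; omega
    | succ g ih =>
      intro h1 h2
      exact step hfree hag h1 h2 fun h => ih (by omega) (by omega)
  have htrue := hall m hm le_rfl
  obtain ⟨hJ, hi, hi'⟩ := And.intro hag.hJ (And.intro hag.hi hag.hi')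
  have hns : nSlot m = 4 * m + 3 := rfl
  have hP := rowD_add_rowL_le m
  have hr := dR hJ (a := 2 * m + 1) (κ := 0) (by omega) hm le_rfl (by norm_num)
  have hp := sR_side (b := rowD m + rowL m) hi (Or.inr (Or.inl rfl))
  have hx := sR_centre (m := m) hi
  have hp' := sR_side (b := rowD m + rowL m + 2) hi (Or.inr (Or.inr rfl))
  have hf := sR_reader hi (g := m + 1) (c := 0) (σ := 0) (by omega) le_rfl (by norm_num)
    (by norm_num)
  have hq := sR_all (m := m) hi
  have he := sC_code hi' (g := m + 1) (c := 0) (by omega) le_rfl (by norm_num)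
  have hK := sC_kind (m := m) hi' (κ := 0) (by norm_num)
  have hv := dC hJ (a := 2 * m) (g := m + 1) (σ := 0) (by omega) (by omega) le_rfl (by norm_num)
  have hz := dC hJ (a := 2 * m + 1) (g := 1) (σ := 0) (by omega) le_rfl (by omega) (by norm_num)
  have hv' := dC hJ (a := 2 * m + 2) (g := m + 1) (σ := 0) (by omega) (by omega) le_rfl
    (by norm_num)
  have hdig : dig m (m + 1) J = 0 := by simp [dig]
  refine no_gadget' hfree hag ⟨_, rfl, Or.inl hf⟩ ⟨_, rfl, Or.inl hq⟩ ⟨_, rfl, Or.inr hr⟩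
    ⟨_, rfl, Or.inl hp⟩ ⟨_, rfl, Or.inl hx⟩ ⟨_, rfl, Or.inl hp'⟩ ⟨_, rfl, Or.inl he⟩
    ⟨_, rfl, Or.inl hK⟩ ⟨_, rfl, Or.inr hv⟩ ⟨_, rfl, Or.inr hz⟩ ⟨_, rfl, Or.inr hv'⟩
    ((Nat.mul_le_mul_right _ (Nat.le_add_right _ _)).trans (Nat.le_add_right _ _))
    ((Nat.mul_le_mul_right _ (by unfold bCode; omega)).trans (Nat.le_add_right _ _))
    (statPos_lt_statPos hi (by unfold bReader bAll nCode; omega))
    (statPos_lt_dynPos hi (by unfold bAll rowD nCode; omega))
    (dynPos_lt_statPos hJ (rowIdx_lt (by omega) hm le_rfl (by norm_num)) le_rfl)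
    (statPos_lt_statPos hi (by omega)) (statPos_lt_statPos hi (by omega))
    (statPos_lt_statPos hi' (by unfold bCode bKind nCode; omega))
    (statPos_lt_dynPos hi' (by unfold bKind colD nCode; omega))
    (dynPos_lt_dynPos (colIdx_slot_lt (by omega) le_rfl (by omega) (by norm_num)))
    (dynPos_lt_dynPos (colIdx_slot_lt (by omega) (by omega) le_rfl (by norm_num)))
    ?_ ?_ ?_ ?_ ?_ ?_
  · simp [hag.eSS hf he, hag.eSS hf hK, hag.eSD hf hv, hag.eSD hf hv', hag.eSD hf hz, entry,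
      hdig]
    omega
  · simp [hag.eSS hq he, hag.eSS hq hK, hag.eSD hq hv, hag.eSD hq hv', hag.eSD hq hz, entry]
  · refine ⟨?_, ?_, ?_, ?_, ?_⟩
    · simp [hag.eDS hr he, entry]
    · simp [hag.eDS hr hK, entry]
    all_goals
      exact htrue _ _ _ _ _ ⟨by omega, by omega⟩ (by norm_num) ⟨by omega, by omega⟩ (by omega)
        (by omega) (by norm_num)
  · simp [hag.eSS hp he, hag.eSS hp hK, hag.eSD hp hv, hag.eSD hp hv', hag.eSD hp hz, entry]
  · simp [hag.eSS hx he, hag.eSS hx hK, hag.eSD hx hv, hag.eSD hx hv', hag.eSD hx hz, entry]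
    omega
  · simp [hag.eSS hp' he, hag.eSS hp' hK, hag.eSD hp' hv, hag.eSD hp' hv', hag.eSD hp' hz, entry]

/-- The counterexample is `1 / (4 P ^ 4)`-far from free, where `P` is the number of blocks. -/
theorem far (hm : 1 ≤ m) : IsFar patH (matA m) (1 / (4 * (nBlock m : ℝ) ^ 4)) := by
  intro B hB
  by_contra hlt
  rw [not_le] at hlt
  set d := (univ.filter fun p : Fin (side m) × Fin (side m) => matA m p.1 p.2 ≠ B p.1 p.2).card
    with hd
  have hP : 0 < (nBlock m : ℝ) := Nat.cast_pos.2 (by unfold nBlock; omega)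
  have hside : (side m : ℝ) = (nBlock m : ℝ) * (2 : ℝ) ^ m := by simp [side]
  have hkey : 1 / (4 * (nBlock m : ℝ) ^ 4) * (side m : ℝ) ^ 2 =
      ((2 : ℝ) ^ m) ^ 2 / (4 * (nBlock m : ℝ) ^ 2) := by
    rw [hside]; field_simp
  rw [hkey, lt_div_iff₀ (by positivity)] at hlt
  have h2 : d * (4 * nBlock m ^ 2) < (2 ^ m) ^ 2 := by exact_mod_cast hlt
  obtain ⟨J, i, i', hag⟩ := exists_agree (B := B) (by rw [← hd]; nlinarith)
  exact not_free hm hB hag

end Vale.Agent.P037CE
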