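import Mathlib
import Vale.Agent.P037CE.Count
import Vale.Agent.P037CE.Far

/-! No polynomial bound holds in the removal lemma for the pattern. -/

namespace Vale.Agent.P037CE

open Finset Filter Vale.Agent.P037

lemma nBlock_le {m : ℕ} (hm : 1 ≤ m) : nBlock m ≤ (nTag + 100) * m ^ 2 := by
  unfold nBlock colL nSlot nCode
  nlinarith [Nat.mul_le_mul hm hm, Nat.le_mul_self m]

lemma one_le_nBlock (m : ℕ) : 1 ≤ nBlock m := by unfold nBlock; omega

theorem not_polynomial (C c : ℝ) (hc : 0 < c) (n0 : ℕ) :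
    ∃ n : ℕ, n0 ≤ n ∧ ∃ (A : Fin n → Fin n → Bool) (ε : ℝ), 0 < ε ∧ ε < 1 ∧ IsFar patH A ε ∧
      (numCopies patH A : ℝ) < c * ε ^ C * (n : ℝ) ^ (2 * kH) := by
  obtain ⟨C', hC'⟩ := exists_nat_ge C
  generalize hK : (4 * ((nTag : ℝ) + 100) ^ 4) ^ C' = K
  have hKpos : 0 < K := by rw [← hK]; positivity
  have hev := ((isLittleO_pow_const_const_pow_of_one_lt (R := ℝ) (8 * C')
    (one_lt_two : (1 : ℝ) < 2)).def (show 0 < c / (2 * K) by positivity)).and
      (eventually_ge_atTop (max n0 1))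
  obtain ⟨m, hm, hm'⟩ := hev.exists
  simp only [norm_pow, RCLike.norm_natCast, RCLike.norm_ofNat] at hm
  have hm1 : 1 ≤ m := le_of_max_le_right hm'
  have hside : 2 ^ m ≤ side m := Nat.le_mul_of_pos_left _ (one_le_nBlock m)
  refine ⟨side m, ((le_of_max_le_left hm').trans Nat.lt_two_pow_self.le).trans hside, matA m,
    1 / (4 * (nBlock m : ℝ) ^ 4), ?_, ?_, far hm1, ?_⟩
  · have := one_le_nBlock m
    positivity
  · have : (1 : ℝ) ≤ (nBlock m : ℝ) := by exact_mod_cast one_le_nBlock m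
    rw [div_lt_one (by positivity)]
    nlinarith [one_le_pow₀ this (n := 4)]
  · have hP1 : (1 : ℝ) ≤ (nBlock m : ℝ) := by exact_mod_cast one_le_nBlock m
    set D : ℝ := 4 * (nBlock m : ℝ) ^ 4 with hD
    have hD1 : 1 ≤ D := by nlinarith [one_le_pow₀ hP1 (n := 4)]
    have hDpos : 0 < D := by linarith
    have hle : (nBlock m : ℝ) ≤ ((nTag : ℝ) + 100) * (m : ℝ) ^ 2 := by
      exact_mod_cast nBlock_le hm1
    have hDC : D ^ C' ≤ K * (m : ℝ) ^ (8 * C') := by
      calc D ^ C' ≤ (4 * (((nTag : ℝ) + 100) * (m : ℝ) ^ 2) ^ 4) ^ C' :=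
            pow_le_pow_left₀ hDpos.le (mul_le_mul_of_nonneg_left
              (pow_le_pow_left₀ (by linarith) hle 4) (by norm_num)) C'
        _ = K * (m : ℝ) ^ (8 * C') := by rw [← hK, pow_mul, ← mul_pow]; ring
    have hDlt : D ^ C' < c * 2 ^ m := by
      have h1 : K * (m : ℝ) ^ (8 * C') ≤ K * (c / (2 * K) * 2 ^ m) :=
        mul_le_mul_of_nonneg_left hm hKpos.le
      have h2 : K * (c / (2 * K) * 2 ^ m) = c * 2 ^ m / 2 := by field_simp
      have h3 : (0 : ℝ) < c * 2 ^ m := by positivity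
      linarith
    have heps : (1 / D) ^ C' ≤ (1 / D) ^ C := by
      rw [← Real.rpow_natCast]
      exact Real.rpow_le_rpow_of_exponent_ge (by positivity) ((div_le_one hDpos).2 hD1) hC'
    have hone : 1 < c * (1 / D) ^ C * 2 ^ m := by
      refine lt_of_lt_of_le ?_ (mul_le_mul_of_nonneg_right
        (mul_le_mul_of_nonneg_left heps hc.le) (by positivity))
      rw [div_pow, one_pow, mul_one_div, div_mul_eq_mul_div, lt_div_iff₀ (by positivity), one_mul]
      exact hDlt
    have hcount : (numCopies patH (matA m) : ℝ) * 2 ^ m ≤ (side m : ℝ) ^ (2 * kH) := by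
      exact_mod_cast copies_le m hm1
    have hnpos : (0 : ℝ) < (side m : ℝ) ^ (2 * kH) := by
      have : 0 < side m := lt_of_lt_of_le (Nat.two_pow_pos m) hside
      positivity
    have h2 : (0 : ℝ) < 2 ^ m := by positivity
    refine lt_of_mul_lt_mul_right (hcount.trans_lt ?_) h2.le
    calc (side m : ℝ) ^ (2 * kH) = 1 * (side m : ℝ) ^ (2 * kH) := (one_mul _).symm
      _ < c * (1 / D) ^ C * 2 ^ m * (side m : ℝ) ^ (2 * kH) := mul_lt_mul_of_pos_right hone hnpos
      _ = c * (1 / D) ^ C * (side m : ℝ) ^ (2 * kH) * 2 ^ m := by ring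

end Vale.Agent.P037CE
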